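import Vale.Agent.P192.H794.F.G5
import Vale.Agent.P192.H479.StmtCell

/-!
# P192: free actions, counters, piecewise isometries of an ordered field: the uniform theorem,
explicit form
-/

namespace Vale.Agent.P192.H794.F

open Vale.Agent.P192.H479 (CellK)

/-- **Free action, counters, piecewise isometries of a line: the uniform theorem.** -/
theorem unif_line (G : Type) [Group G] [Group.IsFinitelyPresented G]
    (hG : ∀ x : G, IsOfFinOrder x) (S : Set G) (hS : Subgroup.closure S = ⊤)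
    (L : Type) [Group L]
    (hL : ∀ E : Set L, E.Finite → ∃ m : ℕ, ∃ C : Set L, ∀ x : L,
      {y | Relation.ReflTransGen (fun a b => (a ∈ C ↔ b ∈ C) ∧ ∃ e ∈ E, b = e * a) x y}.encard ≤ m)
    (k m : ℕ) (K₀ : Set (L × (Fin k → ℤ))) (hK₀ : K₀.Finite) :
    ∃ N : Subgroup G, N.Normal ∧ N.FiniteIndex ∧
      ∀ (𝕜 : Type) [Field 𝕜] [LinearOrder 𝕜] [IsStrictOrderedRing 𝕜] (U : Type) [MulAction L U],
        (∀ (l : L) (u : U), l • u = u → l = 1) →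
        ∀ (W : Fin k → Type) (T : ∀ i, Equiv.Perm (W i))
          (ρ : G →* Equiv.Perm (U × (∀ i, W i) × 𝕜)),
          (∀ s ∈ S, ∃ (c : ∀ i, W i → Fin m) (B R : Finset 𝕜), B.card ≤ m ∧ R.card ≤ m ∧
            ∀ (u : U) (w : ∀ i, W i) (x : 𝕜), ∃ q ∈ K₀, ∃ t ∈ R, ∃ e : 𝕜, |e| = 1 ∧
              ∀ w' : ∀ i, W i, (∀ i, c i (w i) = c i (w' i)) → ∀ x' : 𝕜, CellK B x x' →
                ρ s (u, w', x') = (q.1 • u, fun i => (T i ^ q.2 i) (w' i), e * x' + t)) →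
          ∀ g ∈ N, ρ g = 1 := by
  obtain ⟨N, h1, h2, h3⟩ := unif_iso_one G hG S hS L hL k m K₀ hK₀
  refine ⟨N, h1, h2, ?_⟩
  intro 𝕜 _ _ _ U _ hU W T ρ hρ g hg
  refine h3 { 𝕜 := 𝕜, V := U, free := hU, W := W, T := T, ρ := ρ, pw := ?_ } g hg
  intro s hs
  obtain ⟨c, B, R, hB, hR, h4⟩ := hρ s hs
  refine ⟨c, B, R, hB, hR, fun u w x => ?_⟩
  obtain ⟨q, hq, t, ht, e, he, h5⟩ := h4 u w x
  exact ⟨q, hq, e, he, t, ht, fun w' hw x' hx => h5 w' hw x' hx⟩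

end Vale.Agent.P192.H794.F
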