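import Vale.Agent.P192.H794.F.F11

/-!
# P192: one-sided germs over an ordered field: reduction of reflections to translations
-/

namespace Vale.Agent.P192.H794.F

open Vale.Agent.P192.RL5 (Reg prodAct regPt)
open Vale.Agent.P192.H237 (actW regW)

variable {𝕜 : Type} [Field 𝕜] [LinearOrder 𝕜] [IsStrictOrderedRing 𝕜]

/-- for all small positive `d` -/
def Ev (P : 𝕜 → Prop) : Prop := ∃ δ : 𝕜, 0 < δ ∧ ∀ d, 0 < d → d < δ → P d

theorem Ev.and {P Q : 𝕜 → Prop} (hP : Ev P) (hQ : Ev Q) : Ev fun d => P d ∧ Q d := by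
  obtain ⟨δ, h1, h2⟩ := hP
  obtain ⟨δ', h3, h4⟩ := hQ
  exact ⟨min δ δ', lt_min h1 h3, fun d h5 h6 =>
    ⟨h2 d h5 (h6.trans_le (min_le_left _ _)), h4 d h5 (h6.trans_le (min_le_right _ _))⟩⟩

theorem Ev.mono {P Q : 𝕜 → Prop} (hP : Ev P) (h : ∀ d, 0 < d → P d → Q d) : Ev Q := by
  obtain ⟨δ, h1, h2⟩ := hP
  exact ⟨δ, h1, fun d h5 h6 => h d h5 (h2 d h5 h6)⟩

theorem Ev.two {P : 𝕜 → Prop} (hP : Ev P) : ∃ d d' : 𝕜, 0 < d ∧ d < d' ∧ P d ∧ P d' := by
  obtain ⟨δ, h1, h2⟩ := hP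
  have h3 : 0 < δ / 2 := by linarith
  have h4 : δ / 2 / 2 < δ / 2 := by linarith
  exact ⟨δ / 2 / 2, δ / 2, by linarith, h4, h2 _ (by linarith) (by linarith), h2 _ h3 (by linarith)⟩

theorem Ev.all {ι : Type} (B : Finset ι) {P : ι → 𝕜 → Prop} (h : ∀ b ∈ B, Ev (P b)) :
    Ev fun d => ∀ b ∈ B, P b d := by
  classical
  induction B using Finset.induction_on with
  | empty => exact ⟨1, one_pos, fun d _ _ b hb => absurd hb (Finset.notMem_empty b)⟩
  | insert b B _ ih =>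
    refine ((h b (Finset.mem_insert_self _ _)).and
      (ih fun b' hb' => h b' (Finset.mem_insert_of_mem hb'))).mono ?_
    rintro d - ⟨h1, h2⟩ b' hb'
    rcases Finset.mem_insert.1 hb' with rfl | hb'
    · exact h1
    · exact h2 b' hb'

/-- the sign of a direction -/
def sg (σ : Bool) : 𝕜 := if σ then 1 else -1

theorem sg_sq (σ : Bool) : (sg σ : 𝕜) * sg σ = 1 := by
  cases σ <;> simp [sg]

theorem sg_not (σ : Bool) : (sg (!σ) : 𝕜) = -sg σ := by
  cases σ <;> simp [sg]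

/-- the position of the points near `a` in the direction `σ` -/
def bnd (b a : 𝕜) (σ : Bool) : Prop := if σ then b ≤ a else ¬ -b ≤ a

theorem ev_bnd (B : Finset 𝕜) (a : 𝕜) (σ : Bool) :
    Ev fun d => sg σ * (a + d) ∉ B ∧ ∀ b ∈ B, (b ≤ sg σ * (a + d) ↔ bnd b a σ) := by
  have h : Ev fun d => ∀ b ∈ B, sg σ * (a + d) ≠ b ∧ (b ≤ sg σ * (a + d) ↔ bnd b a σ) := by
    refine Ev.all B fun b _ => ?_
    cases σ
    · simp only [sg, bnd, Bool.false_eq_true, if_false]
      by_cases h : -b ≤ a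
      · refine ⟨1, one_pos, fun d h1 _ => ⟨fun h2 => by linarith, fun h2 => ?_, fun h2 => ?_⟩⟩
        · exact absurd h2 (by linarith)
        · exact absurd h h2
      · push Not at h
        refine ⟨-b - a, by linarith, fun d h1 h3 => ⟨fun h2 => by linarith, fun _ => ?_,
          fun _ => by linarith⟩⟩
        exact not_le.2 h
    · simp only [sg, bnd, if_true]
      by_cases h : b ≤ a
      · exact ⟨1, one_pos, fun d h1 _ => ⟨fun h2 => by linarith, fun _ => h, fun _ => by linarith⟩⟩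
      · push Not at h
        refine ⟨b - a, by linarith, fun d h1 h3 => ⟨fun h2 => by linarith, fun h2 => ?_,
          fun h2 => ?_⟩⟩
        · exact absurd h2 (by linarith)
        · exact absurd h2 (not_le.2 h)
  refine h.mono ?_
  rintro d - h1
  exact ⟨fun h2 => (h1 _ h2).1 rfl, fun b hb => (h1 b hb).2⟩

theorem bnd_congr {B : Finset 𝕜} {a a' : 𝕜} (σ : Bool) {C : Finset 𝕜}
    (hC : ∀ b ∈ B, b ∈ C ∧ -b ∈ C) (h : Band C a a') {b : 𝕜} (hb : b ∈ B) :
    bnd b a σ ↔ bnd b a' σ := by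
  cases σ
  · simp only [bnd, Bool.false_eq_true, if_false]
    exact not_congr (h _ (hC b hb).2)
  · simp only [bnd, if_true]
    exact h _ (hC b hb).1

section frames

variable {G : Type} [Group G] {H V : Type} [Group H] {act : H →* Equiv.Perm V}
  {DV : Set V} (F : Reg act DV)

/-- the points of a frame -/
def pt (f : 𝕜 × (V × Bool)) (d : 𝕜) : 𝕜 × V := (sg f.2.2 * (f.1 + d), f.2.1)

theorem pt_unique {f f' : 𝕜 × (V × Bool)} (h : Ev fun d => pt f d = pt f' d) : f = f' := by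
  obtain ⟨d, d', h0, h1, h2, h3⟩ := h.two
  obtain ⟨a, v, σ⟩ := f
  obtain ⟨a', v', σ'⟩ := f'
  have e1 : sg σ * (a + d) = sg σ' * (a' + d) := congrArg Prod.fst h2
  have e2 : sg σ * (a + d') = sg σ' * (a' + d') := congrArg Prod.fst h3
  have e3 : v = v' := congrArg Prod.snd h2
  subst e3
  have e4 : (sg σ - sg σ') * (d' - d) = 0 := by linarith
  have e5 : (sg σ : 𝕜) = sg σ' := by
    rcases mul_eq_zero.1 e4 with h | h
    · linarith
    · exact absurd h (by linarith)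
  have e6 : σ = σ' := by
    cases σ <;> cases σ' <;> simp [sg] at e5 ⊢ <;> linarith
  subst e6
  have e7 : a = a' := by
    have h4 := congrArg (fun t => sg σ * t) e1
    simp only [← mul_assoc, sg_sq, one_mul] at h4
    linarith
  rw [e7]

/-- the powers of the reflection act on directions -/
def flipAct : Multiplicative ℤ →* Equiv.Perm Bool := zpowersHom _ Equiv.boolNot

theorem flipAct_zero (σ : Bool) : flipAct (Multiplicative.ofAdd 0) σ = σ := by
  have : flipAct (Multiplicative.ofAdd 0) = 1 := by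
    rw [ofAdd_zero, map_one]
  rw [this]
  rfl

theorem flipAct_one (σ : Bool) : flipAct (Multiplicative.ofAdd 1) σ = !σ := by
  have : flipAct (Multiplicative.ofAdd 1) = Equiv.boolNot := by
    change zpowersHom _ Equiv.boolNot (Multiplicative.ofAdd 1) = _
    rw [zpowersHom_apply]
    exact zpow_one _
  rw [this]
  rfl

open Classical in
/-- **Frames.** An action modulo hyperplanes by reflections and translations gives an action by
translations on one-sided germs. -/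
theorem frames (hDV : ∀ v, v ∈ DV) (ρ : G → 𝕜 × V → 𝕜 × V)
    (hone : ∃ B : Finset 𝕜, ∀ x, x ∉ B → ∀ v, ρ 1 (x, v) = (x, v))
    (hmul : ∀ g h, ∃ B : Finset 𝕜, ∀ x, x ∉ B → ∀ v, ρ (g * h) (x, v) = ρ g (ρ h (x, v)))
    (hPw : ∀ g, ∃ B : Finset 𝕜, ∃ r ∈ F.R, ∃ Q : Set (𝕜 × H), Q.Finite ∧ ∀ x, x ∉ B → ∀ v,
      ∃ q ∈ Q, ∃ e : 𝕜, |e| = 1 ∧ ∀ x', x' ∉ B → Band B x x' → ∀ v', r v v' →
        ρ g (x', v') = (e * x' + q.1, act q.2 v')) :
    ∃ Φ : G →* Equiv.Perm (𝕜 × (V × Bool)),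
      (∀ g, (regLine.prod (F.prod (regPt flipAct))).Pw (Φ g)) ∧
      ∀ g, Φ g = 1 → ∃ B : Finset 𝕜, ∀ x, x ∉ B → ∀ v, ρ g (x, v) = (x, v) := by
  -- the image of a frame
  let im : 𝕜 → 𝕜 → H → 𝕜 × (V × Bool) → 𝕜 × (V × Bool) := fun e t h f =>
    (f.1 + e * sg f.2.2 * t, (act h f.2.1, if e = 1 then f.2.2 else !f.2.2))
  have him : ∀ (e t : 𝕜) (h : H) (f : 𝕜 × (V × Bool)) (d : 𝕜), |e| = 1 →
      pt (im e t h f) d = (e * (pt f d).1 + t, act h (pt f d).2) := by
    rintro e t h ⟨a, v, σ⟩ d he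
    have hs := sg_sq (𝕜 := 𝕜) σ
    rcases eq_or_eq_neg_of_abs_eq he with rfl | rfl
    · refine Prod.ext ?_ rfl
      change sg (if (1 : 𝕜) = 1 then σ else !σ) * (a + 1 * sg σ * t + d) = 1 * (sg σ * (a + d)) + t
      rw [if_pos rfl]
      linear_combination t * hs
    · refine Prod.ext ?_ rfl
      change sg (if (-1 : 𝕜) = 1 then σ else !σ) * (a + -1 * sg σ * t + d) =
        -1 * (sg σ * (a + d)) + t
      rw [if_neg (by norm_num), sg_not]
      linear_combination t * hs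
  have hex : ∀ g f, ∃ f', Ev fun d => ρ g (pt f d) = pt f' d := by
    rintro g ⟨a, v, σ⟩
    obtain ⟨B, r, hr, Q, hQ, h1⟩ := hPw g
    have h2 := ev_bnd B a σ
    obtain ⟨d₀, -, -, -, ⟨h3, h4⟩, -⟩ := h2.two
    obtain ⟨q, hq, e, he, h5⟩ := h1 _ h3 v
    refine ⟨im e q.1 q.2 (a, v, σ), h2.mono ?_⟩
    rintro d - ⟨h6, h7⟩
    rw [him _ _ _ _ _ he]
    exact h5 _ h6 (fun b hb => (h4 b hb).trans (h7 b hb).symm) v (F.refl r hr v (hDV v))
  choose φ hφ using hex
  have hφu : ∀ g f f', (Ev fun d => ρ g (pt f d) = pt f' d) → φ g f = f' := by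
    intro g f f' h
    refine pt_unique (((hφ g f).and h).mono ?_)
    rintro d - ⟨h1, h2⟩
    rw [← h1, h2]
  have hev : ∀ (B : Finset 𝕜) (f : 𝕜 × (V × Bool)), Ev fun d => (pt f d).1 ∉ B := by
    intro B f
    exact (ev_bnd B f.1 f.2.2).mono fun d _ h => h.1
  let f₀ : G →* Function.End (𝕜 × (V × Bool)) :=
    { toFun := φ
      map_one' := by
        funext f
        obtain ⟨B, hB⟩ := hone
        refine hφu 1 f f ((hev B f).mono fun d _ h => ?_)
        exact hB _ h _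
      map_mul' := by
        intro g h
        funext f
        obtain ⟨B, hB⟩ := hmul g h
        refine hφu (g * h) f (φ g (φ h f))
          ((((hev B f).and (hφ h f)).and (hφ g (φ h f))).mono ?_)
        rintro d - ⟨⟨h1, h2⟩, h3⟩
        rw [← h3, ← h2]
        exact hB _ h1 _ }
  have hf₀ : ∀ g f, f₀.toHomPerm g f = φ g f := fun g f => rfl
  refine ⟨f₀.toHomPerm, fun g => ?_, fun g hg => ?_⟩
  · obtain ⟨B, r, hr, Q, hQ, h1⟩ := hPw g
    refine ⟨_, ⟨Band (B ∪ B.image fun b => -b), ⟨_, rfl⟩, _, ⟨r, hr, _, rfl, rfl⟩, rfl⟩,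
      (⋃ τ : Bool, ⋃ σ : Bool, (fun q : 𝕜 × H => (Multiplicative.ofAdd (sg τ * sg σ * q.1),
        (q.2, Multiplicative.ofAdd (if τ then (0 : ℤ) else 1)))) '' Q),
      Set.finite_iUnion fun τ => Set.finite_iUnion fun σ => hQ.image _, ?_⟩
    rintro ⟨a, v, σ⟩ -
    have h2 := ev_bnd B a σ
    obtain ⟨d₀, -, -, -, ⟨h3, h4⟩, -⟩ := h2.two
    obtain ⟨q, hq, e, he, h5⟩ := h1 _ h3 v
    obtain ⟨τ, rfl⟩ : ∃ τ, e = sg τ := by
      rcases eq_or_eq_neg_of_abs_eq he with rfl | rfl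
      · exact ⟨true, rfl⟩
      · exact ⟨false, rfl⟩
    refine ⟨_, Set.mem_iUnion.2 ⟨τ, Set.mem_iUnion.2 ⟨σ, q, hq, rfl⟩⟩, ?_⟩
    rintro ⟨a', v', σ'⟩ - ⟨h6, h7, h8⟩
    have h8 : σ = σ' := h8
    subst h8
    refine ⟨?_, trivial, hDV _, trivial⟩
    rw [hf₀]
    have h9 : φ g (a', v', σ) = im (sg τ) q.1 q.2 (a', v', σ) := by
      refine hφu _ _ _ ((ev_bnd B a' σ).mono ?_)
      rintro d - ⟨h10, h11⟩
      rw [him _ _ _ _ _ he]
      refine h5 _ h10 (fun b hb => (h4 b hb).trans (Iff.trans ?_ (h11 b hb).symm)) v' h7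
      exact bnd_congr σ (fun b hb => ⟨Finset.mem_union_left _ hb,
        Finset.mem_union_right _ (Finset.mem_image_of_mem _ hb)⟩) h6 hb
    rw [h9]
    refine Prod.ext rfl (Prod.ext rfl ?_)
    change (if (sg τ : 𝕜) = 1 then σ else !σ) = flipAct (Multiplicative.ofAdd (if τ then (0 : ℤ) else 1)) σ
    cases τ
    · rw [if_neg (by simp only [sg, Bool.false_eq_true, if_false]; norm_num),
        if_neg (by simp), flipAct_one]
    · rw [if_pos (by simp [sg]), if_pos rfl, flipAct_zero]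
  · obtain ⟨B, r, hr, Q, hQ, h1⟩ := hPw g
    refine ⟨B, fun x hx v => ?_⟩
    obtain ⟨q, hq, e, he, h5⟩ := h1 x hx v
    have h6 : φ g (x, v, true) = (x, v, true) := by
      rw [← hf₀, hg]
      rfl
    have h7 := hφ g (x, v, true)
    rw [h6] at h7
    obtain ⟨d, d', h8, h9, ⟨⟨h10, h11⟩, h12⟩, ⟨⟨h13, h14⟩, h15⟩⟩ := ((ev_bnd B x true).and h7).two
    have hsg : (sg true : 𝕜) = 1 := rfl
    have e1 : ρ g (pt (x, v, true) d) = (e * (sg true * (x + d)) + q.1, act q.2 v) :=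
      h5 _ h10 (fun b hb => by
        rw [h11 b hb]
        exact Iff.rfl) v (F.refl r hr v (hDV v))
    have e2 : ρ g (pt (x, v, true) d') = (e * (sg true * (x + d')) + q.1, act q.2 v) :=
      h5 _ h13 (fun b hb => by
        rw [h14 b hb]
        exact Iff.rfl) v (F.refl r hr v (hDV v))
    rw [h12] at e1
    rw [h15] at e2
    have e3 : sg true * (x + d) = e * (sg true * (x + d)) + q.1 := congrArg Prod.fst e1
    have e4 : sg true * (x + d') = e * (sg true * (x + d')) + q.1 := congrArg Prod.fst e2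
    have e5 : v = act q.2 v := congrArg Prod.snd e1
    rw [hsg] at e3 e4
    have e6 : e = 1 := by
      have : (e - 1) * (d' - d) = 0 := by linear_combination e3 - e4
      rcases mul_eq_zero.1 this with h | h
      · linarith
      · exact absurd h (by linarith)
    subst e6
    rw [h5 x hx (Band.refl B x) v (F.refl r hr v (hDV v)), ← e5]
    refine Prod.ext ?_ rfl
    change 1 * x + q.1 = x
    linarith

end frames


end Vale.Agent.P192.H794.F
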