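import Vale.Agent.P192.H794.F.F13
import Vale.Agent.P192.H794.F.F14
import Vale.Agent.P192.H479.RL15

/-!
# P192: piecewise isometries of the line over an ordered field with a free action and counters
-/

namespace Vale.Agent.P192.H794.F

open Vale.Agent.P192.RL5 (Reg prodAct regPt)
open Vale.Agent.P192.H237 (actW regW)
open Vale.Agent.P192.H479 (FUW finite_of_cj cj thr_reg vfree_fin finite_of_sub WO TO cO jn jz thr_fin
  finite_range_of_ker gen_induct)

variable {𝕜 : Type} [Field 𝕜] [LinearOrder 𝕜] [IsStrictOrderedRing 𝕜]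

/-- `x` and `x'` have the same position with respect to the points of `B` -/
def Cell (B : Finset 𝕜) (x x' : 𝕜) : Prop := ∀ b ∈ B, (b < x ↔ b < x') ∧ (x < b ↔ x' < b)


/-- counters with any finite index set -/
theorem main_one_line' (hNu : Nu 𝕜) (G : Type) [Group G] [Group.IsFinitelyPresented G]
    (hG : ∀ x : G, IsOfFinOrder x) (S : Set G) (hS : Subgroup.closure S = ⊤)
    (L : Type) [Group L]
    (hL : ∀ E : Set L, E.Finite → ∃ m : ℕ, ∃ C : Set L, ∀ x : L,
      {y | Relation.ReflTransGen (fun a b => (a ∈ C ↔ b ∈ C) ∧ ∃ e ∈ E, b = e * a) x y}.encard ≤ m)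
    (U : Type) [MulAction L U] (hU : ∀ (l : L) (u : U), l • u = u → l = 1)
    (ι : Type) [Finite ι] (W : ι → Type) (T : ∀ i, Equiv.Perm (W i))
    (ρ : G →* Equiv.Perm (U × (∀ i, W i) × 𝕜))
    (hρ : ∀ s ∈ S, ∃ (m : ℕ) (c : ∀ i, W i → Fin m) (B : Finset 𝕜)
      (K : Set (L × (ι → ℤ) × 𝕜)), K.Finite ∧ ∀ (u : U) (w : ∀ i, W i) (x : 𝕜),
        ∃ q ∈ K, ∀ w' : ∀ i, W i, (∀ i, c i (w i) = c i (w' i)) → ∀ x' : 𝕜, Band B x x' →
          ρ s (u, w', x') = (q.1 • u, fun i => (T i ^ q.2.1 i) (w' i), x' + q.2.2)) :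
    Finite ρ.range := by
  obtain ⟨k, ⟨e⟩⟩ := Finite.exists_equiv_fin ι
  let E₀ : (∀ i, W i) ≃ ∀ j, W (e.symm j) := Equiv.piCongrLeft' W e
  let E : (U × (∀ i, W i) × 𝕜) ≃ (U × (∀ j, W (e.symm j)) × 𝕜) :=
    (Equiv.refl U).prodCongr (E₀.prodCongr (Equiv.refl 𝕜))
  refine finite_of_cj E ρ (main_one_line hNu G hG S hS L hL U hU k (fun j => W (e.symm j))
    (fun j => T (e.symm j)) ((cj E).comp ρ) ?_)
  intro s hs
  obtain ⟨m, c, B, K, hK, h⟩ := hρ s hs
  refine ⟨m, fun j => c (e.symm j), B, (fun q => (q.1, fun j => q.2.1 (e.symm j), q.2.2)) '' K,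
    hK.image _, fun u w x => ?_⟩
  obtain ⟨w₀, rfl⟩ := E₀.surjective w
  obtain ⟨q, hq, h1⟩ := h u w₀ x
  refine ⟨_, ⟨q, hq, rfl⟩, fun w' hw' x' hx' => ?_⟩
  obtain ⟨w₁, rfl⟩ := E₀.surjective w'
  have h2 := h1 w₁ (fun i => by
    obtain ⟨j, rfl⟩ := e.symm.surjective i
    exact hw' j) x' hx'
  have h3 : E.symm (u, E₀ w₁, x') = (u, w₁, x') := E.symm_apply_apply (u, w₁, x')
  change E (ρ s (E.symm (u, E₀ w₁, x'))) = _
  rw [h3, h2]
  rfl

section one

variable {L U : Type} [Group L] [MulAction L U] {k : ℕ} {W : Fin k → Type}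

/-- the action on frames has finite image -/
theorem frames_finite (hNu : Nu 𝕜) (G : Type) [Group G] [Group.IsFinitelyPresented G]
    (hG : ∀ x : G, IsOfFinOrder x)
    (hL : ∀ E : Set L, E.Finite → ∃ m : ℕ, ∃ C : Set L, ∀ x : L,
      {y | Relation.ReflTransGen (fun a b => (a ∈ C ↔ b ∈ C) ∧ ∃ e ∈ E, b = e * a) x y}.encard ≤ m)
    (hU : ∀ (l : L) (u : U), l • u = u → l = 1) (T : ∀ i, Equiv.Perm (W i))
    (Φ : G →* Equiv.Perm (𝕜 × ((U × (∀ i, W i)) × Bool)))
    (hΦ : ∀ g, (regLine.prod ((FUW L U T).prod (regPt flipAct))).Pw (Φ g)) : Finite Φ.range := by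
  classical
  let E : (𝕜 × ((U × (∀ i, W i)) × Bool)) ≃ (U × (∀ o, WO W o) × 𝕜) :=
    { toFun := fun z => (z.2.1.1, jn z.2.1.2 z.2.2, z.1)
      invFun := fun y => (y.2.2, ((y.1, fun i => y.2.1 (some i)), y.2.1 none))
      left_inv := fun z => rfl
      right_inv := by
        rintro ⟨u, w, x⟩
        refine Prod.ext rfl (Prod.ext ?_ rfl)
        funext o
        cases o <;> rfl }
  refine finite_of_cj E Φ (main_one_line' hNu G hG Set.univ ?_ L hL U hU (Option (Fin k)) (WO W)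
    (TO T) _ ?_)
  · exact Subgroup.closure_univ
  intro s _
  obtain ⟨_, ⟨_, ⟨B, rfl⟩, _, ⟨_, ⟨_, rfl, _, ⟨m, c, rfl⟩, rfl⟩, _, rfl, rfl⟩, rfl⟩, Q, hQ, h1⟩ :=
    hΦ s
  refine ⟨m + 2, cO c, B, (fun q : Multiplicative 𝕜 × ((L × (Fin k → Multiplicative ℤ)) ×
    Multiplicative ℤ) => (q.2.1.1, jz q.2.1.2 q.2.2, q.1.toAdd)) '' Q, hQ.image _,
    fun u w x => ?_⟩
  obtain ⟨q, hq, h2⟩ := h1 (x, ((u, fun i => w (some i)), w none)) ⟨trivial, ⟨trivial, trivial⟩,
    trivial⟩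
  refine ⟨_, ⟨q, hq, rfl⟩, fun w' hw' x' hx' => ?_⟩
  have h3 : w none = w' none := by
    have h4 := hw' none
    change Fin.natAdd m (if w none = true then (0 : Fin 2) else 1) =
      Fin.natAdd m (if w' none = true then (0 : Fin 2) else 1) at h4
    have h5 := Fin.natAdd_injective _ _ h4
    have h6 : ∀ a b : Bool, (if a = true then (0 : Fin 2) else 1) = (if b = true then 0 else 1) →
        a = b := by decide
    exact h6 _ _ h5
  have h4 : ∀ i, c i (w (some i)) = c i (w' (some i)) := by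
    intro i
    have h5 := hw' (some i)
    exact Fin.castAdd_injective _ _ h5
  have h5 := (h2 (x', ((u, fun i => w' (some i)), w' none)) ⟨trivial, ⟨trivial, trivial⟩, trivial⟩
    ⟨hx', ⟨rfl, h4⟩, h3⟩).1
  change E (Φ s (x', ((u, fun i => w' (some i)), w' none))) = _
  rw [h5]
  refine Prod.ext rfl (Prod.ext ?_ rfl)
  funext o
  cases o with
  | none =>
    change flipAct q.2.2 (w' none) = (Equiv.boolNot ^ q.2.2.toAdd) (w' none)
    rfl
  | some i => rfl

end one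

/-- the isometries of the line -/
def IsoR : Subgroup (Equiv.Perm 𝕜) where
  carrier := {p | ∃ e t : 𝕜, |e| = 1 ∧ ∀ x, p x = e * x + t}
  one_mem' := ⟨1, 0, abs_one, fun x => by simp⟩
  mul_mem' := by
    rintro p q ⟨e, t, he, h⟩ ⟨e', t', he', h'⟩
    refine ⟨e * e', e * t' + t, by rw [abs_mul, he, he', one_mul], fun x => ?_⟩
    rw [Equiv.Perm.mul_apply, h', h]
    ring
  inv_mem' := by
    rintro p ⟨e, t, he, h⟩
    have h2 : e * e = 1 := by
      rcases eq_or_eq_neg_of_abs_eq he with rfl | rfl <;> norm_num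
    refine ⟨e, -e * t, he, fun x => p.injective ?_⟩
    have h3 : p (p⁻¹ x) = x := by
      rw [← Equiv.Perm.mul_apply, mul_inv_cancel, Equiv.Perm.one_apply]
    rw [h3, h]
    linear_combination (t - x) * h2

/-- an isometry of the line -/
def isoEl (τ : Bool) (t : 𝕜) : IsoR (𝕜 := 𝕜) :=
  ⟨{ toFun := fun x => sg τ * x + t
     invFun := fun x => sg τ * (x - t)
     left_inv := fun x => by
       have h := sg_sq (𝕜 := 𝕜) τ
       change sg τ * (sg τ * x + t - t) = x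
       linear_combination x * h
     right_inv := fun x => by
       have h := sg_sq (𝕜 := 𝕜) τ
       change sg τ * (sg τ * (x - t)) + t = x
       linear_combination (x - t) * h }, sg τ, t, by cases τ <;> simp [sg], fun _ => rfl⟩

theorem isoEl_apply (τ : Bool) (t x : 𝕜) : (IsoR (𝕜 := 𝕜)).subtype (isoEl τ t) x = sg τ * x + t := rfl

theorem Cell.refl (B : Finset 𝕜) (x : 𝕜) : Cell B x x := fun _ _ => ⟨Iff.rfl, Iff.rfl⟩

theorem cell_of_band {B : Finset 𝕜} {x x' : 𝕜} (hx : x ∉ B) (hx' : x' ∉ B) (h : Band B x x') :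
    Cell B x x' := by
  intro b hb
  have h1 : b ≠ x := fun h => hx (h ▸ hb)
  have h2 : b ≠ x' := fun h => hx' (h ▸ hb)
  have h3 := h b hb
  constructor
  · rw [lt_iff_le_and_ne, lt_iff_le_and_ne, h3]
    exact and_congr Iff.rfl ⟨fun _ => h2, fun _ => h1⟩
  · rw [← not_le, ← not_le, h3]

/-- points and open intervals -/
def regCell : Reg (IsoR (𝕜 := 𝕜)).subtype Set.univ where
  R := {r | ∃ B : Finset 𝕜, r = Cell B}
  ne := ⟨_, ∅, rfl⟩
  refl := by
    rintro _ ⟨B, rfl⟩ x _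
    exact Cell.refl B x
  inf := by
    classical
    rintro _ ⟨B, rfl⟩ _ ⟨B', rfl⟩
    refine ⟨_, ⟨B ∪ B', rfl⟩, fun x _ y _ h => ?_⟩
    exact ⟨fun b hb => h b (Finset.mem_union_left _ hb),
      fun b hb => h b (Finset.mem_union_right _ hb)⟩
  pull := by
    classical
    rintro _ ⟨B, rfl⟩ ⟨p, e, t, he, hp⟩
    refine ⟨_, ⟨B.image fun b => e * (b - t), rfl⟩, fun x _ y _ h _ => ⟨trivial, fun b hb => ?_⟩⟩
    obtain ⟨h1, h2⟩ := h (e * (b - t)) (Finset.mem_image_of_mem _ hb)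
    change (b < p x ↔ b < p y) ∧ (p x < b ↔ p y < b)
    rw [hp, hp]
    rcases eq_or_eq_neg_of_abs_eq he with rfl | rfl
    · constructor
      · constructor
        · intro h3
          have := h1.1 (by linarith)
          linarith
        · intro h3
          have := h1.2 (by linarith)
          linarith
      · constructor
        · intro h3
          have := h2.1 (by linarith)
          linarith
        · intro h3
          have := h2.2 (by linarith)
          linarith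
    · constructor
      · constructor
        · intro h3
          have := h2.1 (by linarith)
          linarith
        · intro h3
          have := h2.2 (by linarith)
          linarith
      · constructor
        · intro h3
          have := h1.1 (by linarith)
          linarith
        · intro h3
          have := h1.2 (by linarith)
          linarith

section isoone

variable {L U : Type} [Group L] [MulAction L U] {k : ℕ} {W : Fin k → Type}

/-- **Piecewise isometries of the line with a free action and counters**, all elements. -/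
theorem iso_reg (hNu : Nu 𝕜) (G : Type) [Group G] [Group.IsFinitelyPresented G]
    (hG : ∀ x : G, IsOfFinOrder x)
    (hL : ∀ E : Set L, E.Finite → ∃ m : ℕ, ∃ C : Set L, ∀ x : L,
      {y | Relation.ReflTransGen (fun a b => (a ∈ C ↔ b ∈ C) ∧ ∃ e ∈ E, b = e * a) x y}.encard ≤ m)
    (hU : ∀ (l : L) (u : U), l • u = u → l = 1) (T : ∀ i, Equiv.Perm (W i))
    (ρ : G →* Equiv.Perm (𝕜 × (U × (∀ i, W i))))
    (hPw : ∀ g, (regCell.prod (FUW L U T)).Pw (ρ g)) : Finite ρ.range := by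
  classical
  obtain ⟨Φ, hΦ, hΦ1⟩ := frames (FUW L U T) (fun v => ⟨trivial, trivial⟩) (fun g z => ρ g z)
    ⟨∅, fun x _ v => by rw [map_one]; rfl⟩
    (fun g h => ⟨∅, fun x _ v => by rw [map_mul]; rfl⟩) (by
    intro g
    obtain ⟨_, ⟨_, ⟨B, rfl⟩, r, hr, rfl⟩, Q, hQ, h1⟩ := hPw g
    refine ⟨B, r, hr, (fun q : IsoR (𝕜 := 𝕜) × (L × (Fin k → Multiplicative ℤ)) => (q.1.1 0, q.2)) '' Q,
      hQ.image _, fun x hx v => ?_⟩
    obtain ⟨q, hq, h2⟩ := h1 (x, v) ⟨trivial, trivial, trivial⟩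
    obtain ⟨e, t, he, ht⟩ := q.1.2
    refine ⟨_, ⟨q, hq, rfl⟩, e, he, fun x' hx' hxx v' hv => ?_⟩
    have h3 := (h2 (x', v') ⟨trivial, trivial, trivial⟩ ⟨cell_of_band hx hx' hxx, hv⟩).1
    rw [h3]
    refine Prod.ext ?_ rfl
    change q.1.1 x' = e * x' + q.1.1 0
    rw [ht, ht]
    ring)
  have hΦf : Finite Φ.range := frames_finite hNu G hG hL hU T Φ hΦ
  have hN : Φ.ker.FiniteIndex := by
    have : Finite (G ⧸ Φ.ker) :=
      Finite.of_equiv _ (QuotientGroup.quotientKerEquivRange Φ).symm.toEquiv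
    exact Subgroup.finiteIndex_of_finite_quotient
  refine finite_of_sub Φ.ker hN ρ ?_
  have hNfp : Group.IsFinitelyPresented Φ.ker := fp_of_finiteIndex G Φ.ker
  obtain ⟨M, hMf, hM1, hMinv, hgen, -⟩ := H260.exists_table Φ.ker
  have hB : ∀ n : Φ.ker, ∃ B : Finset 𝕜, ∀ x, x ∉ B → ∀ v, ρ n (x, v) = (x, v) :=
    fun n => hΦ1 n n.2
  choose B hB using hB
  let B' : Finset 𝕜 := hMf.toFinset.biUnion B
  have hB' : ∀ n : Φ.ker, ∀ x, x ∉ B' → ∀ v, ρ n (x, v) = (x, v) := by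
    refine gen_induct hgen ?_ ?_ ?_ ?_
    · intro a ha x hx v
      exact hB a x (fun h => hx (Finset.mem_biUnion.2 ⟨a, hMf.mem_toFinset.2 ha, h⟩)) v
    · intro x _ v
      rw [Subgroup.coe_one, map_one]
      rfl
    · intro a b ha hb x hx v
      rw [Subgroup.coe_mul, map_mul, Equiv.Perm.mul_apply, hb x hx v, ha x hx v]
    · intro a ha x hx v
      have h1 := ha x hx v
      conv_lhs => rw [← h1]
      rw [← Equiv.Perm.mul_apply, ← map_mul, Subgroup.coe_inv, inv_mul_cancel, map_one]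
      rfl
  have hmem : ∀ n : Φ.ker, ∀ x ∈ B', ∀ v, (ρ n (x, v)).1 ∈ B' := by
    intro n x hx v
    by_contra hcon
    have h1 := hB' n _ hcon (ρ n (x, v)).2
    rw [Prod.mk.eta] at h1
    have h2 := (ρ n).injective h1
    rw [h2] at hcon
    exact hcon hx
  let f₀ : Φ.ker →* Function.End ({x // x ∈ B'} × (U × (∀ i, W i))) :=
    { toFun := fun n z => (⟨(ρ n (z.1.1, z.2)).1, hmem n z.1.1 z.1.2 z.2⟩, (ρ n (z.1.1, z.2)).2)
      map_one' := by
        funext z
        refine Prod.ext (Subtype.ext ?_) ?_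
        · change (ρ (1 : Φ.ker) (z.1.1, z.2)).1 = z.1.1
          rw [Subgroup.coe_one, map_one]
          rfl
        · change (ρ (1 : Φ.ker) (z.1.1, z.2)).2 = z.2
          rw [Subgroup.coe_one, map_one]
          rfl
      map_mul' := by
        intro a b
        funext z
        have h1 : ρ ((a * b : Φ.ker) : G) (z.1.1, z.2) = ρ a (ρ b (z.1.1, z.2)) := by
          rw [Subgroup.coe_mul, map_mul]
          rfl
        refine Prod.ext (Subtype.ext ?_) ?_
        · change (ρ ((a * b : Φ.ker) : G) (z.1.1, z.2)).1 =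
            (ρ a ((ρ b (z.1.1, z.2)).1, (ρ b (z.1.1, z.2)).2)).1
          rw [h1]
        · change (ρ ((a * b : Φ.ker) : G) (z.1.1, z.2)).2 =
            (ρ a ((ρ b (z.1.1, z.2)).1, (ρ b (z.1.1, z.2)).2)).2
          rw [h1] }
  have hf₀ : ∀ n z, f₀.toHomPerm n z =
    (⟨(ρ n (z.1.1, z.2)).1, hmem n z.1.1 z.1.2 z.2⟩, (ρ n (z.1.1, z.2)).2) := fun n z => rfl
  have hfin : Finite f₀.toHomPerm.range := by
    refine thr_fin Φ.ker (fun x => ?_) M hMf hgen hMinv hL hU T {x // x ∈ B'} _ ?_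
    · exact Submonoid.isOfFinOrder_coe.1 (hG x)
    · intro a _
      obtain ⟨_, ⟨_, ⟨Ba, rfl⟩, r, hr, rfl⟩, Q, hQ, h1⟩ := hPw a
      refine ⟨r, hr, Prod.snd '' Q, hQ.image _, fun p v => ?_⟩
      obtain ⟨q, hq, h2⟩ := h1 (p.1, v) ⟨trivial, trivial, trivial⟩
      refine ⟨_, ⟨q, hq, rfl⟩, ⟨(ρ a (p.1, v)).1, hmem a p.1 p.2 v⟩, fun v' hv => ?_⟩
      have h3 := (h2 (p.1, v') ⟨trivial, trivial, trivial⟩ ⟨Cell.refl _ _, hv⟩).1
      have h4 := (h2 (p.1, v) ⟨trivial, trivial, trivial⟩ ⟨Cell.refl _ _,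
        (FUW L U T).refl r hr v ⟨trivial, trivial⟩⟩).1
      rw [hf₀]
      refine Prod.ext (Subtype.ext ?_) ?_
      · change (ρ a (p.1, v')).1 = (ρ a (p.1, v)).1
        rw [h3, h4]
        rfl
      · change (ρ a (p.1, v')).2 = _
        rw [h3]
        rfl
  refine finite_range_of_ker f₀.toHomPerm _ hfin (fun n hn => ?_)
  apply Equiv.ext
  rintro ⟨x, v⟩
  change ρ n (x, v) = (x, v)
  by_cases hx : x ∈ B'
  · have h1 := hf₀ n (⟨x, hx⟩, v)
    rw [hn] at h1
    have h2 := congrArg (fun z => ((z.1 : 𝕜), z.2)) h1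
    exact h2.symm
  · exact hB' n x hx v

end isoone

/-- **Piecewise isometries of the line with a free action and counters.** -/
theorem iso_one (hNu : Nu 𝕜) (G : Type) [Group G] [Group.IsFinitelyPresented G]
    (hG : ∀ x : G, IsOfFinOrder x) (S : Set G) (hS : Subgroup.closure S = ⊤)
    (L : Type) [Group L]
    (hL : ∀ E : Set L, E.Finite → ∃ m : ℕ, ∃ C : Set L, ∀ x : L,
      {y | Relation.ReflTransGen (fun a b => (a ∈ C ↔ b ∈ C) ∧ ∃ e ∈ E, b = e * a) x y}.encard ≤ m)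
    (U : Type) [MulAction L U] (hU : ∀ (l : L) (u : U), l • u = u → l = 1)
    (k : ℕ) (W : Fin k → Type) (T : ∀ i, Equiv.Perm (W i))
    (ρ : G →* Equiv.Perm (U × (∀ i, W i) × 𝕜))
    (hρ : ∀ s ∈ S, ∃ (m : ℕ) (c : ∀ i, W i → Fin m) (B : Finset 𝕜)
      (K : Set (L × (Fin k → ℤ) × 𝕜)), K.Finite ∧ ∀ (u : U) (w : ∀ i, W i) (x : 𝕜),
        ∃ q ∈ K, ∃ e : 𝕜, |e| = 1 ∧ ∀ w' : ∀ i, W i, (∀ i, c i (w i) = c i (w' i)) →
          ∀ x' : 𝕜, Cell B x x' →
            ρ s (u, w', x') = (q.1 • u, fun i => (T i ^ q.2.1 i) (w' i), e * x' + q.2.2)) :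
    Finite ρ.range := by
  classical
  let E : (U × (∀ i, W i) × 𝕜) ≃ (𝕜 × (U × (∀ i, W i))) :=
    { toFun := fun z => (z.2.2, z.1, z.2.1)
      invFun := fun z => (z.2.1, z.2.2, z.1)
      left_inv := fun z => rfl
      right_inv := fun z => rfl }
  refine finite_of_cj E ρ ?_
  have hPw := Reg.Pw.all (F := regCell.prod (FUW L U T)) hS ((cj E).comp ρ)
    (fun a _ z => ⟨fun _ => ⟨trivial, trivial, trivial⟩, fun _ => ⟨trivial, trivial, trivial⟩⟩) (by
    intro a ha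
    obtain ⟨m, c, B, K, hK, h2⟩ := hρ a ha
    refine ⟨_, ⟨Cell B, ⟨B, rfl⟩, _, ⟨_, rfl, _, ⟨m, c, rfl⟩, rfl⟩, rfl⟩,
      (⋃ τ : Bool, (fun q : L × (Fin k → ℤ) × 𝕜 =>
        (isoEl τ q.2.2, (q.1, fun i => Multiplicative.ofAdd (q.2.1 i)))) '' K),
      Set.finite_iUnion fun τ => hK.image _, ?_⟩
    rintro ⟨x, u, w⟩ -
    obtain ⟨q, hq, e, he, h3⟩ := h2 u w x
    obtain ⟨τ, rfl⟩ : ∃ τ, e = sg τ := by
      rcases eq_or_eq_neg_of_abs_eq he with rfl | rfl
      · exact ⟨true, rfl⟩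
      · exact ⟨false, rfl⟩
    refine ⟨_, Set.mem_iUnion.2 ⟨τ, q, hq, rfl⟩, ?_⟩
    rintro ⟨x', u', w'⟩ - ⟨h4, h5, h6⟩
    have h5 : u = u' := h5
    subst h5
    have h7 := h3 w' h6 x' h4
    refine ⟨?_, trivial, trivial, trivial⟩
    change E (ρ a (u, w', x')) = _
    rw [h7]
    rfl)
  exact iso_reg hNu G hG hL hU T _ hPw.2


end Vale.Agent.P192.H794.F
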