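import Vale.Agent.P192.H794.F.F0

/-!
# P192: integral deformations in ordered fields (Fourier-Motzkin elimination)
-/

namespace Vale.Agent.P192.H794.F

variable {𝕜 : Type} [Field 𝕜] [LinearOrder 𝕜] [IsStrictOrderedRing 𝕜]

/-- **Fourier-Motzkin elimination.** Finitely many elements of an ordered field can be replaced by
rational numbers keeping the signs of finitely many rational linear forms. -/
theorem exists_rat (n : ℕ) : ∀ (z : Fin n → 𝕜) (C : Finset (Fin n → ℚ)), ∃ q : Fin n → ℚ,
    ∀ c ∈ C, (0 < ∑ i, (c i : 𝕜) * z i → 0 < ∑ i, c i * q i) ∧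
      (∑ i, (c i : 𝕜) * z i = 0 → ∑ i, c i * q i = 0) := by
  classical
  induction n with
  | zero =>
    intro z C
    refine ⟨fun i => i.elim0, fun c _ => ⟨fun h => ?_, fun _ => ?_⟩⟩
    · rw [Fin.sum_univ_zero] at h
      exact absurd h (lt_irrefl _)
    · rw [Fin.sum_univ_zero]
  | succ n ih =>
    intro z C
    let z' : Fin n → 𝕜 := fun i => z i.castSucc
    let y : 𝕜 := z (Fin.last n)
    let E : (Fin n → ℚ) → 𝕜 := fun v => ∑ i, (v i : 𝕜) * z' i
    have hE : ∀ c : Fin (n + 1) → ℚ, ∑ i, (c i : 𝕜) * z i =
        E (fun i => c i.castSucc) + (c (Fin.last n) : 𝕜) * y := by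
      intro c
      rw [Fin.sum_univ_castSucc]
    by_cases hA : ∃ a : Fin n → ℚ, y = E a
    · obtain ⟨a, ha⟩ := hA
      obtain ⟨q, hq⟩ := ih z' (C.image fun c i => c i.castSucc + c (Fin.last n) * a i)
      refine ⟨Fin.snoc q (∑ i, a i * q i), fun c hc => ?_⟩
      have h1 := hq _ (Finset.mem_image_of_mem _ hc)
      have e1 : ∑ i, (c i : 𝕜) * z i =
          ∑ i, ((c i.castSucc + c (Fin.last n) * a i : ℚ) : 𝕜) * z' i := by
        rw [hE, ha]
        change ∑ i, _ + (c (Fin.last n) : 𝕜) * ∑ i, _ = _
        rw [Finset.mul_sum, ← Finset.sum_add_distrib]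
        refine Finset.sum_congr rfl fun i _ => ?_
        push_cast
        ring
      have e2 : ∑ i, c i * (Fin.snoc q (∑ i, a i * q i) : Fin (n + 1) → ℚ) i =
          ∑ i, (c i.castSucc + c (Fin.last n) * a i) * q i := by
        rw [Fin.sum_univ_castSucc]
        simp only [Fin.snoc_castSucc, Fin.snoc_last]
        rw [Finset.mul_sum, ← Finset.sum_add_distrib]
        refine Finset.sum_congr rfl fun i _ => ?_
        ring
      rw [e1, e2]
      exact h1
    · push Not at hA
      let r : (Fin (n + 1) → ℚ) → (Fin n → ℚ) := fun c i => -c i.castSucc / c (Fin.last n)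
      let Cn : Finset (Fin (n + 1) → ℚ) := C.filter fun c => c (Fin.last n) ≠ 0
      let Lo : Finset (Fin n → ℚ) := (Cn.image r).filter fun v => E v < y
      let Up : Finset (Fin n → ℚ) := (Cn.image r).filter fun v => y < E v
      obtain ⟨q, hq⟩ := ih z' (C.image (fun c i => c i.castSucc) ∪
        (Lo ×ˢ Up).image fun p => p.2 - p.1)
      let e : (Fin n → ℚ) → ℚ := fun v => ∑ i, v i * q i
      have hlt : ∀ x ∈ Lo.image e, ∀ x' ∈ Up.image e, x < x' := by
        intro x hx x' hx'
        obtain ⟨l, hl, rfl⟩ := Finset.mem_image.1 hx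
        obtain ⟨u, hu, rfl⟩ := Finset.mem_image.1 hx'
        have h1 := (hq (u - l) (Finset.mem_union_right _ (Finset.mem_image.2
          ⟨(l, u), Finset.mem_product.2 ⟨hl, hu⟩, rfl⟩))).1
        have h2 : ∑ i, (((u - l) i : ℚ) : 𝕜) * z' i = E u - E l := by
          change _ = ∑ i, _ - ∑ i, _
          rw [← Finset.sum_sub_distrib]
          refine Finset.sum_congr rfl fun i _ => ?_
          rw [Pi.sub_apply]
          push_cast
          ring
        have h3 : ∑ i, (u - l) i * q i = e u - e l := by
          change _ = ∑ i, _ - ∑ i, _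
          rw [← Finset.sum_sub_distrib]
          refine Finset.sum_congr rfl fun i _ => ?_
          rw [Pi.sub_apply]
          ring
        rw [h2, h3] at h1
        have h4 := (Finset.mem_filter.1 hl).2
        have h5 := (Finset.mem_filter.1 hu).2
        have := h1 (by linarith)
        linarith
      obtain ⟨t, ht1, ht2⟩ := Order.exists_between_finsets (Lo.image e) (Up.image e) hlt
      refine ⟨Fin.snoc q t, fun c hc => ?_⟩
      have e2 : ∑ i, c i * (Fin.snoc q t : Fin (n + 1) → ℚ) i =
          e (fun i => c i.castSucc) + c (Fin.last n) * t := by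
        rw [Fin.sum_univ_castSucc]
        simp only [Fin.snoc_castSucc, Fin.snoc_last]
        rfl
      rw [hE, e2]
      by_cases h0 : c (Fin.last n) = 0
      · rw [h0]
        push_cast
        rw [zero_mul, zero_mul, add_zero, add_zero]
        exact hq _ (Finset.mem_union_left _ (Finset.mem_image_of_mem _ hc))
      · have h0' : (c (Fin.last n) : 𝕜) ≠ 0 := by exact_mod_cast h0
        have hr : r c ∈ Cn.image r :=
          Finset.mem_image_of_mem _ (Finset.mem_filter.2 ⟨hc, h0⟩)
        have e3 : E (fun i => c i.castSucc) + (c (Fin.last n) : 𝕜) * y =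
            (c (Fin.last n) : 𝕜) * (y - E (r c)) := by
          have h1 : (c (Fin.last n) : 𝕜) * E (r c) = -E (fun i => c i.castSucc) := by
            change _ * ∑ i, _ = -∑ i, _
            rw [Finset.mul_sum, ← Finset.sum_neg_distrib]
            refine Finset.sum_congr rfl fun i _ => ?_
            change _ * (((-c i.castSucc / c (Fin.last n) : ℚ) : 𝕜) * _) = _
            push_cast
            field_simp
          rw [mul_sub, h1]
          ring
        have e4 : e (fun i => c i.castSucc) + c (Fin.last n) * t =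
            c (Fin.last n) * (t - e (r c)) := by
          have h1 : c (Fin.last n) * e (r c) = -e (fun i => c i.castSucc) := by
            change _ * ∑ i, _ = -∑ i, _
            rw [Finset.mul_sum, ← Finset.sum_neg_distrib]
            refine Finset.sum_congr rfl fun i _ => ?_
            change _ * ((-c i.castSucc / c (Fin.last n) : ℚ) * _) = _
            field_simp
          rw [mul_sub, h1]
          ring
        rw [e3, e4]
        rcases lt_trichotomy (E (r c)) y with h1 | h1 | h1
        · have h2 := ht1 _ (Finset.mem_image_of_mem e (Finset.mem_filter.2 ⟨hr, h1⟩))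
          have h3 : 0 < y - E (r c) := by linarith
          constructor
          · intro h4
            have h5 : (0 : 𝕜) < (c (Fin.last n) : 𝕜) := (pos_iff_pos_of_mul_pos h4).2 h3
            have h6 : 0 < c (Fin.last n) := by exact_mod_cast h5
            exact mul_pos h6 (by linarith)
          · intro h4
            rcases mul_eq_zero.1 h4 with h5 | h5
            · exact absurd h5 h0'
            · exact absurd h5 h3.ne'
        · exact absurd h1.symm (hA _)
        · have h2 := ht2 _ (Finset.mem_image_of_mem e (Finset.mem_filter.2 ⟨hr, h1⟩))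
          have h3 : y - E (r c) < 0 := by linarith
          constructor
          · intro h4
            have h5 : (c (Fin.last n) : 𝕜) < 0 := by
              by_contra hcon
              push Not at hcon
              have := mul_nonpos_of_nonneg_of_nonpos hcon h3.le
              linarith
            have h6 : c (Fin.last n) < 0 := by exact_mod_cast h5
            exact mul_pos_of_neg_of_neg h6 (by linarith)
          · intro h4
            rcases mul_eq_zero.1 h4 with h5 | h5
            · exact absurd h5 h0'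
            · exact absurd h5 h3.ne

/-- **Integral deformations exist in every ordered field.** -/
theorem nu : Nu 𝕜 := by
  classical
  intro Z
  obtain ⟨n, ⟨f⟩⟩ := Finite.exists_equiv_fin Z
  let z : Fin n → 𝕜 := fun i => (f.symm i).1
  let b : Fin n → (Fin n → ℚ) := fun i => Pi.single i 1
  have hb : ∀ i, ∑ j, ((b i j : ℚ) : 𝕜) * z j = z i := by
    intro i
    rw [Finset.sum_eq_single i]
    · change ((Pi.single i (1 : ℚ) : Fin n → ℚ) i : 𝕜) * z i = z i
      rw [Pi.single_eq_same, Rat.cast_one, one_mul]
    · intro j _ hj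
      change ((Pi.single i (1 : ℚ) : Fin n → ℚ) j : 𝕜) * z j = 0
      rw [Pi.single_eq_of_ne hj, Rat.cast_zero, zero_mul]
    · intro h
      exact absurd (Finset.mem_univ i) h
  have hb' : ∀ (q : Fin n → ℚ) i, ∑ j, b i j * q j = q i := by
    intro q i
    rw [Finset.sum_eq_single i]
    · change (Pi.single i (1 : ℚ) : Fin n → ℚ) i * q i = q i
      rw [Pi.single_eq_same, one_mul]
    · intro j _ hj
      change (Pi.single i (1 : ℚ) : Fin n → ℚ) j * q j = 0
      rw [Pi.single_eq_of_ne hj, zero_mul]
    · intro h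
      exact absurd (Finset.mem_univ i) h
  obtain ⟨q, hq⟩ := exists_rat n z
    ((Finset.univ.image fun p : Fin n × Fin n × Fin n × Fin n =>
      b p.1 - b p.2.1 + b p.2.2.1 - b p.2.2.2) ∪ Finset.univ.image b)
  have h4 : ∀ i j k l : Fin n, (0 < z i - z j + z k - z l → 0 < q i - q j + q k - q l) ∧
      (z i - z j + z k - z l = 0 → q i - q j + q k - q l = 0) := by
    intro i j k l
    have h1 := hq (b i - b j + b k - b l) (Finset.mem_union_left _
      (Finset.mem_image.2 ⟨(i, j, k, l), Finset.mem_univ _, rfl⟩))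
    have e1 : ∑ t, (((b i - b j + b k - b l) t : ℚ) : 𝕜) * z t = z i - z j + z k - z l := by
      rw [← hb i, ← hb j, ← hb k, ← hb l, ← Finset.sum_sub_distrib, ← Finset.sum_add_distrib,
        ← Finset.sum_sub_distrib]
      refine Finset.sum_congr rfl fun t _ => ?_
      simp only [Pi.sub_apply, Pi.add_apply]
      push_cast
      ring
    have e2 : ∑ t, (b i - b j + b k - b l) t * q t = q i - q j + q k - q l := by
      have h2 : ∀ t, (b i - b j + b k - b l) t * q t = b i t * q t - b j t * q t + b k t * q t -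
          b l t * q t := by
        intro t
        simp only [Pi.sub_apply, Pi.add_apply]
        ring
      rw [Finset.sum_congr rfl fun t _ => h2 t, Finset.sum_sub_distrib, Finset.sum_add_distrib,
        Finset.sum_sub_distrib, hb', hb', hb', hb']
    rwa [e1, e2] at h1
  have h0 : ∀ i, z i = 0 → q i = 0 := by
    intro i hi
    have h1 := (hq (b i) (Finset.mem_union_right _ (Finset.mem_image_of_mem _
      (Finset.mem_univ _)))).2
    rw [hb, hb'] at h1
    exact h1 hi
  let D : ℕ := ∏ i, (q i).den
  have hD : 0 < D := Finset.prod_pos fun i _ => (q i).den_pos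
  have hint : ∀ i, ((⌊(D : ℚ) * q i⌋ : ℤ) : ℚ) = (D : ℚ) * q i := by
    intro i
    obtain ⟨k, hk⟩ : (q i).den ∣ D := Finset.dvd_prod_of_mem _ (Finset.mem_univ i)
    have h1 : (D : ℚ) * q i = ((k * (q i).num : ℤ) : ℚ) := by
      rw [hk]
      push_cast
      have h2 : ((q i).den : ℚ) * q i = (q i).num := Rat.den_mul_eq_num _
      calc ((q i).den : ℚ) * k * q i = k * (((q i).den : ℚ) * q i) := by ring
        _ = k * (q i).num := by rw [h2]
    rw [h1, Int.floor_intCast]
  let ν : 𝕜 → ℤ := fun x => if h : x ∈ Z then ⌊(D : ℚ) * q (f ⟨x, h⟩)⌋ else 0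
  have hν : ∀ x (h : x ∈ Z), ν x = ⌊(D : ℚ) * q (f ⟨x, h⟩)⌋ := fun x h => dif_pos h
  refine ⟨ν, ?_, ?_⟩
  · by_cases h : (0 : 𝕜) ∈ Z
    · rw [hν 0 h, h0 (f ⟨0, h⟩) (by change (f.symm (f ⟨0, h⟩)).1 = 0; rw [f.symm_apply_apply]),
        mul_zero, Int.floor_zero]
    · exact dif_neg h
  · intro x hx y hy z' hz w hw
    have e : ∀ x (h : x ∈ Z), z (f ⟨x, h⟩) = x := by
      intro x h
      change (f.symm (f ⟨x, h⟩)).1 = x
      rw [f.symm_apply_apply]
    have h1 := h4 (f ⟨x, hx⟩) (f ⟨y, hy⟩) (f ⟨z', hz⟩) (f ⟨w, hw⟩)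
    rw [e, e, e, e] at h1
    have hcast : (((ν x - ν y + ν z' - ν w : ℤ)) : ℚ) =
        D * (q (f ⟨x, hx⟩) - q (f ⟨y, hy⟩) + q (f ⟨z', hz⟩) - q (f ⟨w, hw⟩)) := by
      rw [hν x hx, hν y hy, hν z' hz, hν w hw]
      push_cast
      rw [hint, hint, hint, hint]
      ring
    constructor
    · intro h
      have h2 : (0 : ℚ) < ((ν x - ν y + ν z' - ν w : ℤ) : ℚ) := by
        rw [hcast]
        exact mul_pos (by exact_mod_cast hD) (h1.1 h)
      exact_mod_cast h2
    · intro h
      have h2 : ((ν x - ν y + ν z' - ν w : ℤ) : ℚ) = 0 := by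
        rw [hcast, h1.2 h, mul_zero]
      exact_mod_cast h2

end Vale.Agent.P192.H794.F
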