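import Vale.Agent.P192.H794.F.G3
import Vale.Agent.P192.H794.F.F15

/-!
# P192: free actions, counters, piecewise isometries of an ordered field: the uniform theorem
-/

namespace Vale.Agent.P192.H794.F

open Filter Vale.Agent.P192.PMUnif
open Vale.Agent.P192.H479 (finite_of_cj cj cj_apply)

section celltools

variable {ι : Type} (U : Ultrafilter ι) {K : ι → Type} [∀ i, Field (K i)] [∀ i, LinearOrder (K i)]

/-- points of one cell -/
theorem cell_ev {n : ℕ} (β : ∀ i, Fin n → K i) (x y : ∀ i, K i)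
    (h : ∀ j, (mk U (fun i => β i j) < mk U x ↔ mk U (fun i => β i j) < mk U y) ∧
      (mk U x < mk U (fun i => β i j) ↔ mk U y < mk U (fun i => β i j))) :
    ∀ᶠ i in (U : Filter ι), ∀ j, (β i j < x i ↔ β i j < y i) ∧ (x i < β i j ↔ y i < β i j) := by
  rw [eventually_all]
  intro j
  have h1 := (h j).1
  have h2 := (h j).2
  rw [mk_lt, mk_lt] at h1 h2
  exact (ev_iff U h1).and (ev_iff U h2)

/-- the two isometries -/
theorem iso_ev [∀ i, IsStrictOrderedRing (K i)] (τ : Bool) (x t : ∀ i, K i) :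
    (mk U fun i => sg τ * x i + t i) = sg τ * mk U x + mk U t := by
  cases τ
  · have h1 : (sg false : UP U K) = mk U fun i => (sg false : K i) := rfl
    rw [h1, mk_mul, mk_add]
  · have h1 : (sg true : UP U K) = mk U fun i => (sg true : K i) := rfl
    rw [h1, mk_mul, mk_add]

end celltools

/-- a system of generators acting on `V × W 0 × ... × W (k - 1) × 𝕜` by piecewise isometries -/
structure Sys3 (G L : Type) [Group G] [Group L] (S : Set G) (k m : ℕ)
    (K₀ : Set (L × (Fin k → ℤ))) where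
  𝕜 : Type
  [i1 : Field 𝕜]
  [i2 : LinearOrder 𝕜]
  [i3 : IsStrictOrderedRing 𝕜]
  V : Type
  [i4 : MulAction L V]
  free : ∀ (l : L) (u : V), l • u = u → l = 1
  W : Fin k → Type
  T : ∀ i, Equiv.Perm (W i)
  ρ : G →* Equiv.Perm (V × (∀ i, W i) × 𝕜)
  pw : ∀ s ∈ S, ∃ (c : ∀ i, W i → Fin m) (B R : Finset 𝕜), B.card ≤ m ∧ R.card ≤ m ∧
    ∀ (u : V) (w : ∀ i, W i) (x : 𝕜), ∃ q ∈ K₀, ∃ e : 𝕜, |e| = 1 ∧ ∃ t ∈ R,
      ∀ w' : ∀ i, W i, (∀ i, c i (w i) = c i (w' i)) → ∀ x' : 𝕜, Cell B x x' →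
        ρ s (u, w', x') = (q.1 • u, fun i => (T i ^ q.2 i) (w' i), e * x' + t)

attribute [instance] Sys3.i1 Sys3.i2 Sys3.i3 Sys3.i4

/-- **The ultraproduct of systems has finite image.** -/
theorem ultra_iso_one (G : Type) [Group G] [Group.IsFinitelyPresented G]
    (hG : ∀ x : G, IsOfFinOrder x) (S : Set G) (hS : Subgroup.closure S = ⊤)
    (L : Type) [Group L]
    (hL : ∀ E : Set L, E.Finite → ∃ m : ℕ, ∃ C : Set L, ∀ x : L,
      {y | Relation.ReflTransGen (fun a b => (a ∈ C ↔ b ∈ C) ∧ ∃ e ∈ E, b = e * a) x y}.encard ≤ m)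
    (k m : ℕ) (K₀ : Set (L × (Fin k → ℤ))) (hK₀ : K₀.Finite)
    {ι : Type} (D : ι → Sys3 G L S k m K₀) (U : Ultrafilter ι) :
    Finite (act U (fun i => (D i).ρ)).range := by
  classical
  let K : ι → Type := fun i => (D i).𝕜
  let _ : ∀ i, Field (K i) := fun i => (D i).i1
  let _ : ∀ i, LinearOrder (K i) := fun i => (D i).i2
  have hso : ∀ i, IsStrictOrderedRing (K i) := fun i => (D i).i3
  let V : ι → Type := fun i => (D i).V
  let _ : ∀ i, MulAction L (V i) := fun i => (D i).i4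
  let W : ι → Fin k → Type := fun i => (D i).W
  let aV : MulAction L (UP U V) := smulUP U L
  let T' : ∀ j, Equiv.Perm (UP U (fun i => W i j)) := fun j => powUP U fun i => (D i).T j
  have haV : ∀ (l : L) (f : ∀ i, V i), l • mk U f = mk U fun i => l • f i := fun _ _ => rfl
  have hfree : ∀ (l : L) (u : UP U V), l • u = u → l = 1 := by
    intro l u h
    obtain ⟨f, rfl⟩ := exists_mk U u
    rw [haV, mk_eq] at h
    obtain ⟨i, hi⟩ := h.exists
    exact (D i).free l _ hi
  refine finite_of_cj (splitE U (V := V) (W := W) (K := K)) _ ?_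
  set ρ' := (cj (splitE U (V := V) (W := W) (K := K))).comp (act U fun i => (D i).ρ) with hρ'
  have hmk : ∀ (g : G) (a : ∀ i, V i) (b : ∀ j, ∀ i, W i j) (c : ∀ i, K i),
      ρ' g (mk U a, fun j => mk U (b j), mk U c) =
        splitE U (mk U fun i => (D i).ρ g (a i, fun j => b j i, c i)) := by
    intro g a b c
    change splitE U (act U (fun i => (D i).ρ) g ((splitE U).symm _)) = _
    rw [splitE_symm, act_mk]
  refine iso_one nu G hG S hS L hL (UP U V) hfree k (fun j => UP U fun i => W i j) T' ρ' ?_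
  intro s hs
  choose c B R hB hR hpw using fun i => (D i).pw s hs
  choose β hβ using fun i => exists_enum (0 : K i) (B i) (hB i)
  choose r hr using fun i => exists_enum (0 : K i) (R i) (hR i)
  refine ⟨m, fun j y => col U m (map1 U (fun i => c i j) y),
    Finset.univ.image fun t => mk U fun i => β i t,
    (fun p : (L × (Fin k → ℤ)) × Fin (m + 1) => (p.1.1, p.1.2, mk U fun i => r i p.2)) ''
      (K₀ ×ˢ Set.univ), (hK₀.prod Set.finite_univ).image _, ?_⟩
  intro u w x
  obtain ⟨a, rfl⟩ := exists_mk U u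
  choose b hb using fun j => exists_mk U (w j)
  obtain rfl : (fun j => mk U (b j)) = w := funext hb
  obtain ⟨x, rfl⟩ := exists_mk U x
  have h1 : ∀ᶠ i in (U : Filter ι), ∃ q ∈ K₀, ∃ τ : Bool, ∃ t : Fin (m + 1),
      ∀ w' : ∀ j, W i j, (∀ j, c i j (b j i) = c i j (w' j)) → ∀ x' : K i, Cell (B i) (x i) x' →
        (D i).ρ s (a i, w', x') =
          (q.1 • a i, fun j => ((D i).T j ^ q.2 j) (w' j), sg τ * x' + r i t) := by
    refine Eventually.of_forall fun i => ?_
    obtain ⟨q, hq, e, he, t, ht, h2⟩ := hpw i (a i) (fun j => b j i) (x i)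
    obtain ⟨t', ht'⟩ := hr i t ht
    obtain ⟨τ, rfl⟩ : ∃ τ, e = sg τ := by
      rcases eq_or_eq_neg_of_abs_eq he with rfl | rfl
      · exact ⟨true, rfl⟩
      · exact ⟨false, rfl⟩
    refine ⟨q, hq, τ, t', ?_⟩
    rw [ht']
    exact h2
  rw [Ultrafilter.eventually_exists_mem_iff hK₀] at h1
  obtain ⟨q, hq, h1⟩ := h1
  rw [Ultrafilter.eventually_exists_iff] at h1
  obtain ⟨τ, h1⟩ := h1
  rw [Ultrafilter.eventually_exists_iff] at h1
  obtain ⟨t, h1⟩ := h1
  refine ⟨_, ⟨(q, t), ⟨hq, trivial⟩, rfl⟩, sg τ, by cases τ <;> simp [sg], ?_⟩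
  intro w' hw' x' hcell
  choose b' hb' using fun j => exists_mk U (w' j)
  obtain rfl : (fun j => mk U (b' j)) = w' := funext hb'
  obtain ⟨x', rfl⟩ := exists_mk U x'
  have h3 : ∀ᶠ i in (U : Filter ι), ∀ j, c i j (b j i) = c i j (b' j i) := by
    rw [eventually_all]
    intro j
    exact (mk_eq U).1 (col_inj U (hw' j))
  have h5 : ∀ᶠ i in (U : Filter ι), ∀ t, (β i t < x i ↔ β i t < x' i) ∧
      (x i < β i t ↔ x' i < β i t) :=
    cell_ev U β x x' fun t => hcell _ (Finset.mem_image_of_mem _ (Finset.mem_univ t))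
  rw [hmk]
  have h6 : (mk U fun i => (D i).ρ s (a i, fun j => b' j i, x' i)) =
      mk U fun i => (q.1 • a i, fun j => ((D i).T j ^ q.2 j) (b' j i), sg τ * x' i + r i t) := by
    rw [mk_eq]
    filter_upwards [h1, h3, h5] with i e1 e3 e5
    refine e1 _ e3 _ ?_
    intro b hb
    obtain ⟨t, rfl⟩ := hβ i b hb
    exact e5 t
  rw [h6, splitE_mk]
  refine Prod.ext rfl (Prod.ext ?_ (iso_ev U τ x' fun i => r i t))
  funext j
  exact (powUP_zpow U (fun i => (D i).T j) (q.2 j) (b' j)).symm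

/-- **Free action, counters, piecewise isometries of an ordered field: the uniform theorem.** -/
theorem unif_iso_one (G : Type) [Group G] [Group.IsFinitelyPresented G]
    (hG : ∀ x : G, IsOfFinOrder x) (S : Set G) (hS : Subgroup.closure S = ⊤)
    (L : Type) [Group L]
    (hL : ∀ E : Set L, E.Finite → ∃ m : ℕ, ∃ C : Set L, ∀ x : L,
      {y | Relation.ReflTransGen (fun a b => (a ∈ C ↔ b ∈ C) ∧ ∃ e ∈ E, b = e * a) x y}.encard ≤ m)
    (k m : ℕ) (K₀ : Set (L × (Fin k → ℤ))) (hK₀ : K₀.Finite) :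
    ∃ N : Subgroup G, N.Normal ∧ N.FiniteIndex ∧ ∀ D : Sys3 G L S k m K₀, ∀ g ∈ N, D.ρ g = 1 := by
  by_contra hcon
  push Not at hcon
  have h1 : ∀ N : Idx G, ∃ D : Sys3 G L S k m K₀, ∃ g ∈ N.1, D.ρ g ≠ 1 :=
    fun N => hcon N.1 N.2.1 N.2.2
  choose D g hg hne using h1
  have hfg : Group.FG G := by
    obtain ⟨n, φ, hφ, -⟩ := (inferInstance : Group.IsFinitelyPresented G)
    exact Group.fg_of_surjective hφ
  exact scheme hfg _ (fun i => (D i).ρ) g hg hne
    (fun U => ultra_iso_one G hG S hS L hL k m K₀ hK₀ D U)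

end Vale.Agent.P192.H794.F
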