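import Vale.Agent.P192.H176.RL5

/-!
# P192: interval exchanges over an ordered field: models

Everything of `RL5` for an ordered field `𝕜` instead of the real numbers; `Nu 𝕜`: finite sets have
integral deformations.
-/

namespace Vale.Agent.P192.H794.F

open Vale.Agent.P192.RL5 (Reg)

variable {𝕜 : Type} [Field 𝕜] [LinearOrder 𝕜] [IsStrictOrderedRing 𝕜]

/-- finite sets of elements of `𝕜` can be deformed to integers -/
def Nu (𝕜 : Type) [Field 𝕜] [LinearOrder 𝕜] : Prop :=
  ∀ Z : Finset 𝕜, ∃ ν : 𝕜 → ℤ, ν 0 = 0 ∧ ∀ x ∈ Z, ∀ y ∈ Z, ∀ z ∈ Z, ∀ w ∈ Z,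
    (0 < x - y + z - w → 0 < ν x - ν y + ν z - ν w) ∧
      (x - y + z - w = 0 → ν x - ν y + ν z - ν w = 0)

/-- translations of the real line -/
noncomputable def trans : Multiplicative 𝕜 →* Equiv.Perm 𝕜 where
  toFun t := Equiv.addRight t.toAdd
  map_one' := by
    ext x
    change x + (1 : Multiplicative 𝕜).toAdd = x
    rw [toAdd_one, add_zero]
  map_mul' s t := by
    ext x
    change x + (s * t).toAdd = (x + t.toAdd) + s.toAdd
    rw [toAdd_mul]
    ring

@[simp] theorem trans_apply (t : Multiplicative 𝕜) (x : 𝕜) : trans t x = x + t.toAdd := rfl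


/-- two points of one interval -/
def Band (B : Finset 𝕜) (x y : 𝕜) : Prop := ∀ b ∈ B, b ≤ x ↔ b ≤ y

theorem Band.refl (B : Finset 𝕜) (x : 𝕜) : Band B x x := fun _ _ => Iff.rfl

open Classical in
theorem Band.pull (L : 𝕜) (B : Finset 𝕜) (t : 𝕜) : ∃ B' : Finset 𝕜, ∀ x y : 𝕜, Band B' x y →
    x + t ∈ Set.Ico 0 L → y + t ∈ Set.Ico 0 L ∧ Band B (x + t) (y + t) := by
  refine ⟨(insert 0 (insert L B)).image fun b => b - t, fun x y h hx => ?_⟩
  have h1 : ∀ b ∈ insert 0 (insert L B), b ≤ x + t ↔ b ≤ y + t := by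
    intro b hb
    have := h (b - t) (Finset.mem_image_of_mem _ hb)
    constructor
    · intro h2
      have := this.1 (by linarith)
      linarith
    · intro h2
      have := this.2 (by linarith)
      linarith
  refine ⟨⟨(h1 0 (Finset.mem_insert_self _ _)).1 hx.1, ?_⟩, fun b hb => h1 b ?_⟩
  · by_contra hcon
    push Not at hcon
    have := (h1 L (Finset.mem_insert_of_mem (Finset.mem_insert_self _ _))).2 hcon
    exact absurd hx.2 (not_lt.2 this)
  · exact Finset.mem_insert_of_mem (Finset.mem_insert_of_mem hb)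

/-- the intervals of `[0, L)` -/
def regReal (L : 𝕜) : Reg trans (Set.Ico 0 L) where
  R := {r | ∃ B : Finset 𝕜, r = Band B}
  ne := ⟨_, ∅, rfl⟩
  refl := by
    rintro _ ⟨B, rfl⟩ x _
    exact Band.refl B x
  inf := by
    classical
    rintro _ ⟨B, rfl⟩ _ ⟨B', rfl⟩
    refine ⟨_, ⟨B ∪ B', rfl⟩, fun x _ y _ h => ?_⟩
    exact ⟨fun b hb => h b (Finset.mem_union_left _ hb),
      fun b hb => h b (Finset.mem_union_right _ hb)⟩
  pull := by
    rintro _ ⟨B, rfl⟩ t
    obtain ⟨B', hB'⟩ := Band.pull L B t.toAdd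
    exact ⟨_, ⟨B', rfl⟩, fun x _ y _ h h' => hB' x y h h'⟩


/-- the free action -/
@[reducible] def fact {E : Type} (τ : FreeGroup E →* Multiplicative 𝕜) :
    MulAction (FreeGroup E) (𝕜 × FreeGroup E) where
  smul f z := (z.1 + (τ f).toAdd, f * z.2)
  one_smul z := by
    change (z.1 + (τ 1).toAdd, 1 * z.2) = z
    rw [map_one, toAdd_one, add_zero, one_mul]
  mul_smul f g z := by
    change (z.1 + (τ (f * g)).toAdd, (f * g) * z.2) =
      ((z.1 + (τ g).toAdd) + (τ f).toAdd, f * (g * z.2))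
    rw [map_mul, toAdd_mul, mul_assoc]
    congr 1
    ring

end Vale.Agent.P192.H794.F
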