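import Vale.Agent.P192.H794.F.F9
import Vale.Agent.P192.H794.F.F12

/-!
# P192: piecewise actions on products with lines over an ordered field, explicit form
-/

namespace Vale.Agent.P192.H794.F

open Vale.Agent.P192.RL5 (Reg prodAct regPt)
open Vale.Agent.P192.H237 (actW regW)
open Vale.Agent.P192.H479 (FUW finite_of_cj cj)

variable {𝕜 : Type} [Field 𝕜] [LinearOrder 𝕜] [IsStrictOrderedRing 𝕜]

/-- **Free action, counters, line.** -/
theorem main_one_line (hNu : Nu 𝕜) (G : Type) [Group G] [Group.IsFinitelyPresented G]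
    (hG : ∀ x : G, IsOfFinOrder x) (S : Set G) (hS : Subgroup.closure S = ⊤)
    (L : Type) [Group L]
    (hL : ∀ E : Set L, E.Finite → ∃ m : ℕ, ∃ C : Set L, ∀ x : L,
      {y | Relation.ReflTransGen (fun a b => (a ∈ C ↔ b ∈ C) ∧ ∃ e ∈ E, b = e * a) x y}.encard ≤ m)
    (U : Type) [MulAction L U] (hU : ∀ (l : L) (u : U), l • u = u → l = 1)
    (k : ℕ) (W : Fin k → Type) (T : ∀ i, Equiv.Perm (W i))
    (ρ : G →* Equiv.Perm (U × (∀ i, W i) × 𝕜))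
    (hρ : ∀ s ∈ S, ∃ (m : ℕ) (c : ∀ i, W i → Fin m) (B : Finset 𝕜)
      (K : Set (L × (Fin k → ℤ) × 𝕜)), K.Finite ∧ ∀ (u : U) (w : ∀ i, W i) (x : 𝕜),
        ∃ q ∈ K, ∀ w' : ∀ i, W i, (∀ i, c i (w i) = c i (w' i)) → ∀ x' : 𝕜, Band B x x' →
          ρ s (u, w', x') = (q.1 • u, fun i => (T i ^ q.2.1 i) (w' i), x' + q.2.2)) :
    Finite ρ.range := by
  classical
  let E : (U × (∀ i, W i) × 𝕜) ≃ (𝕜 × (U × (∀ i, W i))) :=
    { toFun := fun z => (z.2.2, z.1, z.2.1)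
      invFun := fun z => (z.2.1, z.2.2, z.1)
      left_inv := fun z => rfl
      right_inv := fun z => rfl }
  refine finite_of_cj E ρ ?_
  have hPw := Reg.Pw.all (F := regLine.prod (FUW L U T)) hS ((cj E).comp ρ)
    (fun a _ z => ⟨fun _ => ⟨trivial, trivial, trivial⟩, fun _ => ⟨trivial, trivial, trivial⟩⟩) (by
    intro a ha
    obtain ⟨m, c, B, K, hK, h2⟩ := hρ a ha
    refine ⟨_, ⟨Band B, ⟨B, rfl⟩, _, ⟨_, rfl, _, ⟨m, c, rfl⟩, rfl⟩, rfl⟩,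
      (fun q : L × (Fin k → ℤ) × 𝕜 =>
        (Multiplicative.ofAdd q.2.2, (q.1, fun i => Multiplicative.ofAdd (q.2.1 i)))) '' K,
      hK.image _, ?_⟩
    rintro ⟨x, u, w⟩ -
    obtain ⟨q, hq, h3⟩ := h2 u w x
    refine ⟨_, ⟨q, hq, rfl⟩, ?_⟩
    rintro ⟨x', u', w'⟩ - ⟨h4, h5, h6⟩
    have h5 : u = u' := h5
    subst h5
    have h7 := h3 w' h6 x' h4
    refine ⟨?_, trivial, trivial, trivial⟩
    change E (ρ a (u, w', x')) = _
    rw [h7]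
    rfl)
  exact A2L pieG hNu H823.thr G hG hL hU T _ hPw.2

/-- **Two lines, counters.** -/
theorem main_two_line (hNu : Nu 𝕜) (G : Type) [Group G] [Group.IsFinitelyPresented G]
    (hG : ∀ x : G, IsOfFinOrder x) (S : Set G) (hS : Subgroup.closure S = ⊤)
    (k : ℕ) (W : Fin k → Type) (T : ∀ i, Equiv.Perm (W i))
    (ρ : G →* Equiv.Perm (𝕜 × (∀ i, W i) × 𝕜))
    (hρ : ∀ s ∈ S, ∃ (m : ℕ) (c : ∀ i, W i → Fin m) (B : Finset 𝕜)
      (K : Set (𝕜 × (Fin k → ℤ) × 𝕜)), K.Finite ∧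
        ∀ (x : 𝕜) (w : ∀ i, W i) (y : 𝕜), ∃ q ∈ K,
          ∀ x' : 𝕜, Band B x x' → ∀ w' : ∀ i, W i, (∀ i, c i (w i) = c i (w' i)) →
            ∀ y' : 𝕜, Band B y y' →
          ρ s (x', w', y') = (x' + q.1, fun i => (T i ^ q.2.1 i) (w' i), y' + q.2.2)) :
    Finite ρ.range := by
  classical
  let E : (𝕜 × (∀ i, W i) × 𝕜) ≃ (𝕜 × (𝕜 × (∀ i, W i))) :=
    { toFun := fun z => (z.1, z.2.2, z.2.1)
      invFun := fun z => (z.1, z.2.2, z.2.1)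
      left_inv := fun z => rfl
      right_inv := fun z => rfl }
  refine finite_of_cj E ρ ?_
  have hPw := Reg.Pw.all (F := regLine.prod (FLW T)) hS ((cj E).comp ρ)
    (fun a _ z => ⟨fun _ => ⟨trivial, trivial, trivial⟩, fun _ => ⟨trivial, trivial, trivial⟩⟩) (by
    intro a ha
    obtain ⟨m, c, B, K, hK, h2⟩ := hρ a ha
    refine ⟨_, ⟨Band B, ⟨B, rfl⟩, _, ⟨_, ⟨B, rfl⟩, _, ⟨m, c, rfl⟩, rfl⟩, rfl⟩,
      (fun q : 𝕜 × (Fin k → ℤ) × 𝕜 =>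
        (Multiplicative.ofAdd q.1, (Multiplicative.ofAdd q.2.2,
          fun i => Multiplicative.ofAdd (q.2.1 i)))) '' K,
      hK.image _, ?_⟩
    rintro ⟨x, y, w⟩ -
    obtain ⟨q, hq, h3⟩ := h2 x w y
    refine ⟨_, ⟨q, hq, rfl⟩, ?_⟩
    rintro ⟨x', y', w'⟩ - ⟨h4, h5, h6⟩
    have h7 := h3 x' h4 w' h6 y' h5
    refine ⟨?_, trivial, trivial, trivial⟩
    change E (ρ a (x', w', y')) = _
    rw [h7]
    rfl)
  exact A1L pieG hNu H823.thr G hG T _ hPw.2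


end Vale.Agent.P192.H794.F
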