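import Vale.Agent.P192.H794.F.F1

/-!
# P192: interval exchanges over an ordered field, with a parameter: words and the free cocycle
-/

namespace Vale.Agent.P192.H794.F

namespace RD

variable {𝕜 : Type} [Field 𝕜] [LinearOrder 𝕜] [IsStrictOrderedRing 𝕜] {G : Type} [Group G] {V : Type}
  (D : RD 𝕜 G V) (R : Set 𝕜) (pos : ℤ → V → 𝕜)

/-- the generator of a real number -/
noncomputable def gen (r : 𝕜) : FreeGroup R :=
  open Classical in if h : r ∈ R then FreeGroup.of ⟨r, h⟩ else 1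

/-- the translation of an element of the free group -/
def tau : FreeGroup R →* Multiplicative 𝕜 :=
  FreeGroup.lift (fun r : R => Multiplicative.ofAdd (r : 𝕜))

theorem tau_gen {r : 𝕜} (h : r ∈ R) : (tau R (gen R r)).toAdd = r := by
  unfold tau gen
  rw [dif_pos h, FreeGroup.lift_apply_of]
  rfl

/-- the word up to a position -/
noncomputable def wd (v : V) : ℕ → FreeGroup R
  | 0 => gen R (pos 0 v)
  | n + 1 => wd v n * gen R (pos (n + 1) v - pos n v)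

/-- the word up to an integer position -/
noncomputable def W (k : ℤ) (v : V) : FreeGroup R := wd R pos v k.toNat

theorem W_succ {k : ℤ} (hk : 0 ≤ k) (v : V) :
    W R pos (k + 1) v = W R pos k v * gen R (pos (k + 1) v - pos k v) := by
  unfold W
  have h : (k + 1).toNat = k.toNat + 1 := by omega
  rw [h]
  change wd R pos v k.toNat * gen R (pos ((k.toNat : ℤ) + 1) v - pos (k.toNat : ℤ) v) = _
  rw [Int.toNat_of_nonneg hk]

/-- the cocycle on the integral model -/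
noncomputable def cc (a : G) (k : ℤ) (v : V) : FreeGroup R :=
  W R pos (D.act a k v) (D.act2 a k v) * (W R pos k v)⁻¹

variable {pos}
variable (hpos : ∀ a ∈ D.M, ∀ k, 0 ≤ k → k < D.ν D.L → ∀ v,
  pos (D.act a k v) (D.act2 a k v) = D.tr a k v + pos k v)

include hpos in
/-- **The cocycle is constant on the bands: one step.** -/
theorem cc_succ {k : ℤ} (hk : 0 ≤ k) (hkL : k + 1 < D.ν D.L)
    (hB : ∀ c ∈ D.B, D.ν c ≤ k + 1 → D.ν c ≤ k) {a : G} (ha : a ∈ D.M) (v : V) :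
    D.cc R pos a (k + 1) v = D.cc R pos a k v := by
  have hk1 : 0 ≤ k + 1 := by omega
  have hkL0 : k < D.ν D.L := by omega
  have h1 := D.pt' ha v (D.p_ge hk) (D.p_ge hk1) (fun c hc => by
    rw [D.B_le_p hk hkL0 hc, D.B_le_p hk1 hkL hc]
    exact ⟨fun h => by omega, hB c hc⟩)
  have h2 : D.tr a (k + 1) v = D.tr a k v := by
    unfold tr
    linarith [h1.1]
  have h3 : D.act a (k + 1) v = D.act a k v + 1 := by
    have := D.νeq (D.ρ a (D.p (k + 1), v)).1 (D.ZC1 (D.pC _ hk1) ha v) (D.ρ a (D.p k, v)).1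
      (D.ZC1 (D.pC _ hk) ha v) (D.p k) (D.ZC0 _ (D.pC _ hk)) (D.p (k + 1)) (D.ZC0 _ (D.pC _ hk1))
      (by linarith [h1.1])
    unfold act
    omega
  have h3' : D.act2 a (k + 1) v = D.act2 a k v := h1.2
  have g1 := D.act_ge hk hkL0 ha v
  have e1 := hpos a ha k hk hkL0 v
  have e2 := hpos a ha (k + 1) hk1 hkL v
  rw [h3, h3', h2] at e2
  have h4 : pos (D.act a k v + 1) (D.act2 a k v) - pos (D.act a k v) (D.act2 a k v) =
      pos (k + 1) v - pos k v := by linarith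
  unfold cc
  rw [h3, h3', W_succ R pos g1.1, W_succ R pos hk, h4]
  group

include hpos in
/-- **The cocycle is constant on the bands.** -/
theorem cc_band {k : ℤ} (hk : 0 ≤ k) {a : G} (ha : a ∈ D.M) (v : V) (n : ℕ)
    (hkL : k + n < D.ν D.L)
    (hB : ∀ c ∈ D.B, D.ν c ≤ k + n → D.ν c ≤ k) : D.cc R pos a (k + n) v = D.cc R pos a k v := by
  induction n with
  | zero => simp
  | succ n ih =>
    push_cast at hkL hB ⊢
    rw [← add_assoc, D.cc_succ R hpos (by omega) (by omega) ?_ ha]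
    · exact ih (by omega) (fun c hc h => hB c hc (by omega))
    · intro c hc h
      have := hB c hc (by omega)
      omega

include hpos in
theorem cc_band' {k k' : ℤ} (hk : 0 ≤ k ∧ k < D.ν D.L) (hk' : 0 ≤ k' ∧ k' < D.ν D.L) {a : G}
    (ha : a ∈ D.M) (v : V) (hB : ∀ c ∈ D.B, D.ν c ≤ k ↔ D.ν c ≤ k') :
    D.cc R pos a k v = D.cc R pos a k' v := by
  rcases le_total k k' with h | h
  · obtain ⟨n, rfl⟩ := Int.le.dest h
    exact (D.cc_band R hpos hk.1 ha v n hk'.2 (fun c hc => (hB c hc).2)).symm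
  · obtain ⟨n, rfl⟩ := Int.le.dest h
    exact D.cc_band R hpos hk'.1 ha v n hk.2 (fun c hc => (hB c hc).1)

/-! ### the real cocycle -/

/-- the last point before `y` -/
theorem exists_last {y : 𝕜} (hy : 0 ≤ y ∧ y < D.L) :
    ∃ c ∈ D.C, c ≤ y ∧ ∀ d ∈ D.C, d ≤ y → d ≤ c := by
  classical
  obtain ⟨n, hn, hmax⟩ := Finset.exists_max_image (D.C.filter fun c => c ≤ y) id
    ⟨0, by rw [Finset.mem_filter]; exact ⟨D.C0, hy.1⟩⟩
  rw [Finset.mem_filter] at hn
  refine ⟨n, hn.1, hn.2, fun d hd hdy => hmax d ?_⟩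
  rw [Finset.mem_filter]
  exact ⟨hd, hdy⟩

open Classical in
/-- the last point before `y` -/
noncomputable def lst (y : 𝕜) : 𝕜 := if h : 0 ≤ y ∧ y < D.L then (D.exists_last h).choose else 0

variable {y : 𝕜}

theorem lst_spec (hy : 0 ≤ y ∧ y < D.L) :
    D.lst y ∈ D.C ∧ D.lst y ≤ y ∧ ∀ d ∈ D.C, d ≤ y → d ≤ D.lst y := by
  unfold lst
  rw [dif_pos hy]
  exact (D.exists_last hy).choose_spec

/-- the integral point below `y` -/
noncomputable def kk (y : 𝕜) : ℤ := D.ν (D.lst y)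

theorem kk_ge (hy : 0 ≤ y ∧ y < D.L) : 0 ≤ D.kk y ∧ D.kk y < D.ν D.L := by
  have h := D.lst_spec hy
  constructor
  · have := D.ν_le (D.ZC0 _ D.C0) (D.ZC0 _ h.1) (D.Cge _ h.1).1
    rwa [D.ν0] at this
  · exact D.ν_lt (D.ZC0 _ h.1) D.ZL (D.Cge _ h.1).2

theorem p_kk (hy : 0 ≤ y ∧ y < D.L) : D.p (D.kk y) = D.lst y := by
  have h := D.lst_spec hy
  have hk := D.kk_ge hy
  apply le_antisymm
  · exact (D.ν_le_iff (D.ZC0 _ (D.pC _ hk.1)) (D.ZC0 _ h.1)).1 (D.pν _ hk.1)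
  · exact D.pmax _ hk.1 _ h.1 le_rfl

/-- breakpoints below `y` -/
theorem B_le_kk (hy : 0 ≤ y ∧ y < D.L) {c : 𝕜} (hc : c ∈ D.B) : D.ν c ≤ D.kk y ↔ c ≤ y := by
  have h := D.lst_spec hy
  rw [kk, D.ν_le_iff (D.ZB hc) (D.ZC0 _ h.1)]
  refine ⟨fun h1 => h1.trans h.2.1, fun h1 => h.2.2 c (D.BC1 _ hc (lt_of_le_of_lt h1 hy.2)) h1⟩

/-- the image of `y` -/
theorem ρ_lst (hy : 0 ≤ y ∧ y < D.L) {a : G} (ha : a ∈ D.M) (v : V) :
    (D.ρ a (y, v)).1 - (D.ρ a (D.lst y, v)).1 = y - D.lst y ∧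
      (D.ρ a (y, v)).2 = (D.ρ a (D.lst y, v)).2 := by
  have h := D.lst_spec hy
  refine D.pt' ha v (D.Cge _ h.1) hy (fun c hc => ?_)
  refine ⟨fun h1 => h1.trans h.2.1, fun h1 => h.2.2 c (D.BC1 _ hc (lt_of_le_of_lt h1 hy.2)) h1⟩

/-- breakpoints below the image of `y` -/
theorem B_le_ρ (hy : 0 ≤ y ∧ y < D.L) {b : G} (hb : b ∈ D.M) (v : V) {c : 𝕜} (hc : c ∈ D.B) :
    c ≤ (D.ρ b (y, v)).1 ↔ c ≤ (D.ρ b (D.lst y, v)).1 := by
  have h := D.lst_spec hy
  have h1 := (D.ρ_lst hy hb v).1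
  constructor
  · intro h2
    by_contra hcon
    push Not at hcon
    obtain ⟨n, hnZ, hn, hnL, hmin, hnC⟩ := D.exists_next (D.Cge _ h.1).2
    have h3 := D.shift_le (D.Cge _ h.1).1 hnL hmin hb v hc hcon
    have h4 : n ≤ y := by linarith
    have h5 := h.2.2 n (hnC (lt_of_le_of_lt h4 hy.2)) h4
    linarith
  · intro h2
    have := h.2.1
    linarith

theorem act2_kk (hy : 0 ≤ y ∧ y < D.L) {a : G} (ha : a ∈ D.M) (v : V) :
    D.act2 a (D.kk y) v = (D.ρ a (y, v)).2 := by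
  unfold act2
  rw [D.p_kk hy]
  exact (D.ρ_lst hy ha v).2.symm

include hpos in
/-- **The free cocycle.** -/
theorem cc_mul (hy : 0 ≤ y ∧ y < D.L) {a b : G} (ha : a ∈ D.M) (hb : b ∈ D.M) (v : V) :
    D.cc R pos (a * b) (D.kk y) v =
      D.cc R pos a (D.kk (D.ρ b (y, v)).1) (D.ρ b (y, v)).2 * D.cc R pos b (D.kk y) v := by
  have hk := D.kk_ge hy
  have hby := D.mem_Ico b v hy
  have h1 : D.cc R pos a (D.kk (D.ρ b (y, v)).1) (D.ρ b (y, v)).2 =
      D.cc R pos a (D.act b (D.kk y) v) (D.act2 b (D.kk y) v) := by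
    rw [D.act2_kk hy hb]
    refine D.cc_band' R hpos (D.kk_ge hby) (D.act_ge hk.1 hk.2 hb v) ha _ (fun c hc => ?_)
    rw [D.B_le_kk hby hc, D.B_le_ρ hy hb v hc, ← D.p_kk hy, D.B_le_act hk.1 hk.2 hb v hc]
  rw [h1]
  unfold cc
  rw [D.act_mul hk.1 hk.2 ha hb, D.act2_mul hk.1 hk.2 ha hb]
  group

theorem cc_one (pos : ℤ → V → 𝕜) (k : ℤ) (v : V) : D.cc R pos 1 k v = 1 := by
  unfold cc
  rw [D.act_one, D.act2_one]
  group

/-! ### the translation -/

variable (hR0 : ∀ v, pos 0 v ∈ R)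
  (hR1 : ∀ k, 0 ≤ k → k + 1 < D.ν D.L → ∀ v, pos (k + 1) v - pos k v ∈ R)

include hR0 hR1 in
theorem tau_wd (n : ℕ) (h : (n : ℤ) < D.ν D.L) (v : V) :
    (tau R (wd R pos v n)).toAdd = pos n v := by
  induction n with
  | zero =>
    change (tau R (gen R (pos 0 v))).toAdd = _
    rw [tau_gen R (hR0 v)]
    rfl
  | succ n ih =>
    push_cast at h ⊢
    change (tau R (wd R pos v n * gen R (pos ((n : ℤ) + 1) v - pos (n : ℤ) v))).toAdd = _
    rw [map_mul, toAdd_mul, ih (by omega), tau_gen R (hR1 n (by omega) h v)]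
    ring

include hR0 hR1 in
theorem tau_W {k : ℤ} (h : 0 ≤ k ∧ k < D.ν D.L) (v : V) :
    (tau R (W R pos k v)).toAdd = pos k v := by
  have := D.tau_wd R hR0 hR1 k.toNat (by omega) v
  rw [Int.toNat_of_nonneg h.1] at this
  exact this

include hpos hR0 hR1 in
/-- **The translation of the cocycle.** -/
theorem tau_cc (hy : 0 ≤ y ∧ y < D.L) {a : G} (ha : a ∈ D.M) (v : V) :
    y + (tau R (D.cc R pos a (D.kk y) v)).toAdd = (D.ρ a (y, v)).1 := by
  have hk := D.kk_ge hy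
  unfold cc
  rw [map_mul, map_inv, toAdd_mul, toAdd_inv,
    D.tau_W R hR0 hR1 (D.act_ge hk.1 hk.2 ha v), D.tau_W R hR0 hR1 hk, hpos a ha _ hk.1 hk.2]
  have h := (D.ρ_lst hy ha v).1
  unfold tr
  rw [D.p_kk hy]
  linarith

end RD


end Vale.Agent.P192.H794.F
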