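import Vale.Agent.P192.H794.F.F2
import Vale.Agent.P192.H479.RL3

/-!
# P192: interval exchanges over an ordered field, with a parameter: the average potential, the lift
-/

namespace Vale.Agent.P192.H794.F

open Vale.Agent.P192.H479 (gen_induct finite_range_of_index)

section avg

variable {𝕜 : Type} [Field 𝕜] [LinearOrder 𝕜] [IsStrictOrderedRing 𝕜] {G : Type} [Group G] {X : Type}
  (Ψ : G →* Equiv.Perm (X × 𝕜))
  (hΨ : ∀ g x r, Ψ g (x, r) = ((Ψ g (x, 0)).1, (Ψ g (x, 0)).2 + r))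

/-- the average potential -/
noncomputable def avg [Fintype Ψ.range] (x : X) : 𝕜 :=
  -((∑ q : Ψ.range, ((q : Equiv.Perm (X × 𝕜)) (x, 0)).2) / (Fintype.card Ψ.range : 𝕜))

include hΨ in
theorem avg_spec [Fintype Ψ.range] (g : G) (x : X) :
    avg Ψ (Ψ g (x, 0)).1 = (Ψ g (x, 0)).2 + avg Ψ x := by
  have h1 : ∀ q : Ψ.range, (((q * ⟨Ψ g, g, rfl⟩ : Ψ.range) : Equiv.Perm (X × 𝕜)) (x, 0)).2 =
      ((q : Equiv.Perm (X × 𝕜)) ((Ψ g (x, 0)).1, 0)).2 + (Ψ g (x, 0)).2 := by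
    rintro ⟨_, t, rfl⟩
    change (Ψ t (Ψ g (x, 0))).2 = _
    have h := hΨ t (Ψ g (x, 0)).1 (Ψ g (x, 0)).2
    rw [Prod.mk.eta] at h
    rw [h]
  have h2 : ∑ q : Ψ.range, (((q * ⟨Ψ g, g, rfl⟩ : Ψ.range) : Equiv.Perm (X × 𝕜)) (x, 0)).2 =
      ∑ q : Ψ.range, ((q : Equiv.Perm (X × 𝕜)) (x, 0)).2 :=
    Equiv.sum_comp (Equiv.mulRight (⟨Ψ g, g, rfl⟩ : Ψ.range))
      (fun q : Ψ.range => ((q : Equiv.Perm (X × 𝕜)) (x, 0)).2)
  rw [Finset.sum_congr rfl (fun q _ => h1 q), Finset.sum_add_distrib, Finset.sum_const,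
    Finset.card_univ, nsmul_eq_mul] at h2
  have h3 : (Fintype.card Ψ.range : 𝕜) ≠ 0 := by
    exact_mod_cast Fintype.card_ne_zero
  unfold avg
  rw [← h2]
  field_simp
  ring

include hΨ in
/-- torsion: finite image on `X` gives finite image -/
theorem finite_of_base (hG : ∀ g : G, IsOfFinOrder g) (Ψ0 : G →* Equiv.Perm X)
    (h0 : ∀ g x, (Ψ g (x, 0)).1 = Ψ0 g x) (hfin : Finite Ψ0.range) : Finite Ψ.range := by
  have hone : ∀ g, Ψ0 g = 1 → Ψ g = 1 := by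
    intro g hg
    have hfix : ∀ x, (Ψ g (x, 0)).1 = x := fun x => by rw [h0, hg]; rfl
    have hpow : ∀ (n : ℕ) (x : X), Ψ (g ^ n) (x, 0) = (x, n * (Ψ g (x, 0)).2) := by
      intro n x
      induction n with
      | zero =>
        rw [pow_zero, map_one]
        simp
      | succ n ih =>
        rw [pow_succ', map_mul, Equiv.Perm.mul_apply, ih, hΨ]
        refine Prod.ext (hfix x) ?_
        push_cast
        ring
    obtain ⟨n, hn, hgn⟩ := isOfFinOrder_iff_pow_eq_one.1 (hG g)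
    have hc : ∀ x, (Ψ g (x, 0)).2 = 0 := by
      intro x
      have h1 := hpow n x
      rw [hgn, map_one] at h1
      have h2 : (0 : 𝕜) = n * (Ψ g (x, 0)).2 := congrArg Prod.snd h1
      have h3 : (n : 𝕜) ≠ 0 := by exact_mod_cast hn.ne'
      rcases mul_eq_zero.1 h2.symm with h4 | h4
      · exact absurd h4 h3
      · exact h4
    apply Equiv.ext
    rintro ⟨x, r⟩
    rw [hΨ, hfix, hc, zero_add]
    rfl
  have hker : Ψ0.ker ≤ Ψ.ker := fun g hg => hone g hg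
  have h1 : Ψ0.ker.FiniteIndex := by
    have : Finite (G ⧸ Ψ0.ker) :=
      Finite.of_equiv _ (QuotientGroup.quotientKerEquivRange Ψ0).symm.toEquiv
    exact Subgroup.finiteIndex_of_finite_quotient
  exact finite_range_of_index Ψ Ψ0.ker h1 (fun g hg => hone g hg)

end avg

namespace RD

variable {𝕜 : Type} [Field 𝕜] [LinearOrder 𝕜] [IsStrictOrderedRing 𝕜] {G : Type} [Group G] {V : Type}
  (D : RD 𝕜 G V)

/-- the integral model -/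
abbrev Pt : Type := {k : ℤ // 0 ≤ k ∧ k < D.ν D.L}

instance : Finite D.Pt := Set.finite_Ico (0 : ℤ) (D.ν D.L)

open Classical in
/-- the action on the mixed model -/
noncomputable def φ0 (g : G) (z : D.Pt × V) : D.Pt × V :=
  if h : 0 ≤ D.act g z.1.1 z.2 ∧ D.act g z.1.1 z.2 < D.ν D.L then
    (⟨D.act g z.1.1 z.2, h⟩, D.act2 g z.1.1 z.2) else z

theorem φ0_of {g : G} (z : D.Pt × V)
    (h : 0 ≤ D.act g z.1.1 z.2 ∧ D.act g z.1.1 z.2 < D.ν D.L) :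
    D.φ0 g z = (⟨D.act g z.1.1 z.2, h⟩, D.act2 g z.1.1 z.2) := dif_pos h

theorem φ0_M {g : G} (hg : g ∈ D.M) (z : D.Pt × V) :
    ((D.φ0 g z).1 : ℤ) = D.act g z.1.1 z.2 ∧ (D.φ0 g z).2 = D.act2 g z.1.1 z.2 := by
  rw [D.φ0_of z (D.act_ge z.1.2.1 z.1.2.2 hg z.2)]
  exact ⟨rfl, rfl⟩

theorem φ0_one : D.φ0 1 = id := by
  funext z
  have h := D.φ0_M D.one z
  rw [D.act_one, D.act2_one] at h
  exact Prod.ext (Subtype.ext h.1) h.2

theorem φ0_mul {a b : G} (ha : a ∈ D.M) (hb : b ∈ D.M) : D.φ0 (a * b) = D.φ0 a ∘ D.φ0 b := by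
  funext z
  have hz := z.1.2
  have h1 := D.act_ge hz.1 hz.2 hb z.2
  have h2 := D.act_ge h1.1 h1.2 ha (D.act2 b z.1.1 z.2)
  have h3 : 0 ≤ D.act (a * b) z.1.1 z.2 ∧ D.act (a * b) z.1.1 z.2 < D.ν D.L := by
    rw [D.act_mul hz.1 hz.2 ha hb z.2]; exact h2
  change D.φ0 (a * b) z = D.φ0 a (D.φ0 b z)
  rw [D.φ0_of z h3, D.φ0_of z h1, D.φ0_of _ h2]
  exact Prod.ext (Subtype.ext (D.act_mul hz.1 hz.2 ha hb z.2)) (D.act2_mul hz.1 hz.2 ha hb z.2)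

/-- the action on the mixed model with real decorations -/
noncomputable def φ1 (g : G) (z : (D.Pt × V) × 𝕜) : (D.Pt × V) × 𝕜 :=
  (D.φ0 g z.1, D.tr g z.1.1 z.1.2 + z.2)

theorem φ1_one : D.φ1 1 = id := by
  funext z
  unfold φ1
  rw [D.φ0_one, D.tr_one, zero_add]
  rfl

theorem φ1_mul {a b : G} (ha : a ∈ D.M) (hb : b ∈ D.M) : D.φ1 (a * b) = D.φ1 a ∘ D.φ1 b := by
  funext z
  have hz := z.1.1.2
  have h1 := D.φ0_M hb z.1
  refine Prod.ext ?_ ?_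
  · change D.φ0 (a * b) z.1 = D.φ0 a (D.φ0 b z.1)
    rw [D.φ0_mul ha hb]
    rfl
  · change D.tr (a * b) z.1.1.1 z.1.2 + z.2 =
      D.tr a (D.φ0 b z.1).1.1 (D.φ0 b z.1).2 + (D.tr b z.1.1.1 z.1.2 + z.2)
    rw [h1.1, h1.2, D.tr_mul hz.1 hz.2 ha hb z.1.2, add_assoc]

/-- **The mixed model with real decorations has finite image.** -/
theorem exists_mixed (hG : ∀ g : G, IsOfFinOrder g) (hgen : Subgroup.closure D.M = ⊤)
    (htab : Vale.Agent.P192.H479.RD.Tab D.M)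
    (hfin : ∀ Ψ0 : G →* Equiv.Perm (D.Pt × V), (∀ a ∈ D.M, ∀ z, Ψ0 a z = D.φ0 a z) →
      Finite Ψ0.range) :
    ∃ (Ψ0 : G →* Equiv.Perm (D.Pt × V)) (Ψ : G →* Equiv.Perm ((D.Pt × V) × 𝕜)),
      (∀ a ∈ D.M, ∀ z, Ψ0 a z = D.φ0 a z) ∧ (∀ a ∈ D.M, ∀ z, Ψ a z = D.φ1 a z) ∧
      (∀ g x r, Ψ g (x, r) = ((Ψ g (x, 0)).1, (Ψ g (x, 0)).2 + r)) ∧
      (∀ g x r, (Ψ g (x, r)).1 = Ψ0 g x) ∧ Finite Ψ.range := by
  obtain ⟨Ψ0, h0⟩ := htab _ D.φ0 D.φ0_one (fun a ha b hb => D.φ0_mul ha hb)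
  obtain ⟨Ψ, h1⟩ := htab _ D.φ1 D.φ1_one (fun a ha b hb => D.φ1_mul ha hb)
  have hb : ∀ g x r, (Ψ g (x, r)).1 = Ψ0 g x := by
    refine gen_induct hgen ?_ ?_ ?_ ?_
    · intro a ha x r
      rw [h1 a ha, h0 a ha]
      rfl
    · intro x r
      rw [map_one, map_one]
      rfl
    · intro a b ha hb x r
      rw [map_mul, map_mul, Equiv.Perm.mul_apply, Equiv.Perm.mul_apply,
        ← Prod.mk.eta (p := Ψ b (x, r)), ha, hb]
    · intro a ha x r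
      have h2 := ha (Ψ a⁻¹ (x, r)).1 (Ψ a⁻¹ (x, r)).2
      rw [Prod.mk.eta, ← Equiv.Perm.mul_apply, ← map_mul, mul_inv_cancel, map_one] at h2
      change x = _ at h2
      conv_rhs => rw [h2]
      rw [← Equiv.Perm.mul_apply, ← map_mul, inv_mul_cancel, map_one]
      rfl
  have hΨt : ∀ g x r, Ψ g (x, r) = ((Ψ g (x, 0)).1, (Ψ g (x, 0)).2 + r) := by
    refine gen_induct hgen ?_ ?_ ?_ ?_
    · intro a ha x r
      rw [h1 a ha, h1 a ha]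
      refine Prod.ext rfl ?_
      change D.tr a x.1 x.2 + r = D.tr a x.1 x.2 + 0 + r
      ring
    · intro x r
      rw [map_one, Equiv.Perm.one_apply, Equiv.Perm.one_apply, zero_add]
    · intro a b ha hb x r
      rw [map_mul, Equiv.Perm.mul_apply, Equiv.Perm.mul_apply, hb x r, ha, hb x 0]
      conv_rhs => rw [ha]
      refine Prod.ext rfl ?_
      change _ + (_ + _) = _ + (_ + 0) + r
      ring
    · intro a ha x r
      obtain ⟨⟨y, s⟩, hy⟩ : ∃ z, Ψ a z = (x, 0) := (Ψ a).surjective _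
      have e1 : Ψ a (y, s + r) = (x, r) := by
        have h1 := ha y s
        have h2 := ha y (s + r)
        rw [hy] at h1
        rw [h2]
        have h3 := congrArg Prod.fst h1
        have h4 := congrArg Prod.snd h1
        refine Prod.ext h3.symm ?_
        change (0 : 𝕜) = _ + s at h4
        change _ + (s + r) = r
        linarith
      have i1 : Ψ a⁻¹ (x, 0) = (y, s) := by
        rw [← hy, ← Equiv.Perm.mul_apply, ← map_mul, inv_mul_cancel, map_one]; rfl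
      have i2 : Ψ a⁻¹ (x, r) = (y, s + r) := by
        rw [← e1, ← Equiv.Perm.mul_apply, ← map_mul, inv_mul_cancel, map_one]; rfl
      rw [i1, i2]
  exact ⟨Ψ0, Ψ, h0, h1, hΨt, hb,
    finite_of_base Ψ hΨt hG Ψ0 (fun g x => hb g x 0) (hfin Ψ0 h0)⟩

/-- the translations of all elements form a finite set -/
theorem finite_tr (hgen : Subgroup.closure D.M = ⊤)
    (Ψ : G →* Equiv.Perm ((D.Pt × V) × 𝕜)) (h1 : ∀ a ∈ D.M, ∀ z, Ψ a z = D.φ1 a z)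
    (hΨ : ∀ g x r, Ψ g (x, r) = ((Ψ g (x, 0)).1, (Ψ g (x, 0)).2 + r))
    (T : Set 𝕜) (hT : T.Finite)
    (hTT : ∀ a ∈ D.M, ∀ x v, 0 ≤ x → x < D.L → (D.ρ a (x, v)).1 - x ∈ T) (g : G) :
    {r : 𝕜 | ∃ x, r = (Ψ g (x, 0)).2}.Finite := by
  refine gen_induct hgen (P := fun g => {r : 𝕜 | ∃ x, r = (Ψ g (x, 0)).2}.Finite) ?_ ?_ ?_ ?_ g
  · intro a ha
    refine hT.subset ?_
    rintro r ⟨x, rfl⟩
    rw [h1 a ha]
    change D.tr a x.1 x.2 + 0 ∈ T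
    rw [add_zero]
    exact hTT a ha _ _ (D.p_ge x.1.2.1).1 (D.p_ge x.1.2.1).2
  · refine (Set.finite_singleton (0 : 𝕜)).subset ?_
    rintro r ⟨x, rfl⟩
    rw [map_one]
    rfl
  · intro a b ha hb
    refine (ha.image2 (fun s t => s + t) hb).subset ?_
    rintro r ⟨x, rfl⟩
    refine ⟨_, ⟨(Ψ b (x, 0)).1, rfl⟩, _, ⟨x, rfl⟩, ?_⟩
    rw [map_mul, Equiv.Perm.mul_apply]
    have h := hΨ a (Ψ b (x, 0)).1 (Ψ b (x, 0)).2
    rw [Prod.mk.eta] at h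
    rw [h]
  · intro a ha
    refine (ha.image (fun s => -s)).subset ?_
    rintro r ⟨x, rfl⟩
    refine ⟨_, ⟨(Ψ a⁻¹ (x, 0)).1, rfl⟩, ?_⟩
    have h := hΨ a (Ψ a⁻¹ (x, 0)).1 (Ψ a⁻¹ (x, 0)).2
    rw [Prod.mk.eta, ← Equiv.Perm.mul_apply, ← map_mul, mul_inv_cancel, map_one] at h
    have h2 := congrArg Prod.snd h
    change (0 : 𝕜) = _ + _ at h2
    change -_ = _
    linarith

section pos

variable (Ψ : G →* Equiv.Perm ((D.Pt × V) × 𝕜)) [Fintype Ψ.range]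

open Classical in
/-- the potential -/
noncomputable def pos (k : ℤ) (v : V) : 𝕜 :=
  if h : 0 ≤ k ∧ k < D.ν D.L then avg Ψ (⟨k, h⟩, v) else 0

theorem pos_of {k : ℤ} (h : 0 ≤ k ∧ k < D.ν D.L) (v : V) : D.pos Ψ k v = avg Ψ (⟨k, h⟩, v) :=
  dif_pos h

theorem pos_spec (h1 : ∀ a ∈ D.M, ∀ z, Ψ a z = D.φ1 a z)
    (hΨ : ∀ g x r, Ψ g (x, r) = ((Ψ g (x, 0)).1, (Ψ g (x, 0)).2 + r)) :
    ∀ a ∈ D.M, ∀ k, 0 ≤ k → k < D.ν D.L → ∀ v,
      D.pos Ψ (D.act a k v) (D.act2 a k v) = D.tr a k v + D.pos Ψ k v := by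
  intro a ha k hk hkL v
  have h := D.act_ge hk hkL ha v
  rw [D.pos_of Ψ h, D.pos_of Ψ ⟨hk, hkL⟩]
  have h2 := avg_spec Ψ hΨ a (⟨k, hk, hkL⟩, v)
  rw [h1 a ha] at h2
  have h3 : (D.φ1 a (((⟨k, hk, hkL⟩ : D.Pt), v), 0)).1 = (⟨D.act a k v, h⟩, D.act2 a k v) :=
    D.φ0_of (⟨k, hk, hkL⟩, v) h
  rw [h3] at h2
  rw [h2]
  change D.tr a k v + 0 + _ = _
  rw [add_zero]

theorem finite_avg {X : Type} (Ψ : G →* Equiv.Perm (X × 𝕜)) [Fintype Ψ.range]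
    (hf : ∀ g, {r : 𝕜 | ∃ x, r = (Ψ g (x, 0)).2}.Finite) :
    {r : 𝕜 | ∃ x, r = avg Ψ x}.Finite := by
  classical
  have h1 : ∀ q : Ψ.range,
      {r : 𝕜 | ∃ x, r = ((q : Equiv.Perm (X × 𝕜)) (x, 0)).2}.Finite := by
    rintro ⟨_, g, rfl⟩
    exact hf g
  have h2 : (Set.pi Set.univ (fun q : Ψ.range =>
      {r : 𝕜 | ∃ x, r = ((q : Equiv.Perm (X × 𝕜)) (x, 0)).2})).Finite :=
    Set.Finite.pi h1
  refine (h2.image (fun f : Ψ.range → 𝕜 =>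
    -((∑ q : Ψ.range, f q) / (Fintype.card Ψ.range : 𝕜)))).subset ?_
  rintro r ⟨x, rfl⟩
  exact ⟨fun q => ((q : Equiv.Perm (X × 𝕜)) (x, 0)).2, fun q _ => ⟨x, rfl⟩, rfl⟩

/-- a finite set of letters -/
theorem exists_R (hL : 0 < D.ν D.L) (hf : {r : 𝕜 | ∃ x, r = avg Ψ x}.Finite) :
    ∃ R : Set 𝕜, R.Finite ∧ (∀ v, D.pos Ψ 0 v ∈ R) ∧
      ∀ k, 0 ≤ k → k + 1 < D.ν D.L → ∀ v, D.pos Ψ (k + 1) v - D.pos Ψ k v ∈ R := by
  refine ⟨{r : 𝕜 | ∃ x, r = avg Ψ x} ∪ Set.image2 (fun s t => s - t) {r : 𝕜 | ∃ x, r = avg Ψ x}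
    {r : 𝕜 | ∃ x, r = avg Ψ x}, hf.union (hf.image2 _ hf), ?_, ?_⟩
  · intro v
    rw [D.pos_of Ψ ⟨le_rfl, hL⟩]
    exact Or.inl ⟨_, rfl⟩
  · intro k hk hkL v
    rw [D.pos_of Ψ ⟨by omega, hkL⟩, D.pos_of Ψ ⟨hk, by omega⟩]
    exact Or.inr ⟨_, ⟨_, rfl⟩, _, ⟨_, rfl⟩, rfl⟩

end pos

/-! ### the lifted action -/

section lift

variable (R : Set 𝕜) (pos : ℤ → V → 𝕜)

open Classical in
/-- the action on the line times the free group times `V` -/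
noncomputable def φ2 (g : G) (z : (𝕜 × FreeGroup R) × V) : (𝕜 × FreeGroup R) × V :=
  if 0 ≤ z.1.1 ∧ z.1.1 < D.L then
    (((D.ρ g (z.1.1, z.2)).1, D.cc R pos g (D.kk z.1.1) z.2 * z.1.2), (D.ρ g (z.1.1, z.2)).2)
  else z

theorem φ2_of {g : G} (z : (𝕜 × FreeGroup R) × V) (h : 0 ≤ z.1.1 ∧ z.1.1 < D.L) :
    D.φ2 R pos g z = (((D.ρ g (z.1.1, z.2)).1, D.cc R pos g (D.kk z.1.1) z.2 * z.1.2),
      (D.ρ g (z.1.1, z.2)).2) := if_pos h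

theorem φ2_of' {g : G} (z : (𝕜 × FreeGroup R) × V) (h : ¬ (0 ≤ z.1.1 ∧ z.1.1 < D.L)) :
    D.φ2 R pos g z = z := if_neg h

theorem φ2_one : D.φ2 R pos 1 = id := by
  funext z
  by_cases h : 0 ≤ z.1.1 ∧ z.1.1 < D.L
  · rw [D.φ2_of R pos z h, D.ρ_one, D.cc_one, one_mul]
    rfl
  · rw [D.φ2_of' R pos z h]
    rfl

variable {pos}
variable (hpos : ∀ a ∈ D.M, ∀ k, 0 ≤ k → k < D.ν D.L → ∀ v,
  pos (D.act a k v) (D.act2 a k v) = D.tr a k v + pos k v)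

include hpos in
theorem φ2_mul {a b : G} (ha : a ∈ D.M) (hb : b ∈ D.M) :
    D.φ2 R pos (a * b) = D.φ2 R pos a ∘ D.φ2 R pos b := by
  funext z
  change D.φ2 R pos (a * b) z = D.φ2 R pos a (D.φ2 R pos b z)
  by_cases h : 0 ≤ z.1.1 ∧ z.1.1 < D.L
  · have hb' := D.mem_Ico b z.2 h
    rw [D.φ2_of R pos z h, D.φ2_of R pos z h, D.φ2_of R pos _ hb', D.ρ_mul,
      D.cc_mul R hpos h ha hb, mul_assoc]
  · rw [D.φ2_of' R pos z h, D.φ2_of' R pos z h, D.φ2_of' R pos z h]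

include hpos in
/-- **The lifted action.** -/
theorem exists_lift (hgen : Subgroup.closure D.M = ⊤) (htab : Vale.Agent.P192.H479.RD.Tab D.M) :
    ∃ Φ : G →* Equiv.Perm ((𝕜 × FreeGroup R) × V),
      (∀ a ∈ D.M, ∀ z, Φ a z = D.φ2 R pos a z) ∧
      ∀ g z, ((Φ g z).1.1, (Φ g z).2) = D.ρ g (z.1.1, z.2) := by
  obtain ⟨Φ, hΦ⟩ := htab _ (D.φ2 R pos) (D.φ2_one R pos) (fun a ha b hb => D.φ2_mul R hpos ha hb)
  refine ⟨Φ, hΦ, ?_⟩
  refine gen_induct hgen ?_ ?_ ?_ ?_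
  · intro a ha z
    rw [hΦ a ha]
    by_cases h : 0 ≤ z.1.1 ∧ z.1.1 < D.L
    · rw [D.φ2_of R pos z h]
    · rw [D.φ2_of' R pos z h, D.out a z.1.1 z.2 h]
  · intro z
    rw [map_one, D.ρ_one]
    rfl
  · intro a b ha hb z
    rw [map_mul, Equiv.Perm.mul_apply, ha, hb, D.ρ_mul]
  · intro a ha z
    have h1 := ha (Φ a⁻¹ z)
    rw [← Equiv.Perm.mul_apply, ← map_mul, mul_inv_cancel, map_one, Equiv.Perm.one_apply] at h1
    rw [h1, ← D.ρ_mul, inv_mul_cancel, D.ρ_one]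

end lift

end RD


end Vale.Agent.P192.H794.F
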