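import Vale.Agent.P192.H794.F.F4

/-!
# P192: interval factors over an ordered field can be replaced by tree-like factors
-/

namespace Vale.Agent.P192.H794.F

open Vale.Agent.P192.RL5 (Reg prodAct regPt)

variable {𝕜 : Type} [Field 𝕜] [LinearOrder 𝕜] [IsStrictOrderedRing 𝕜]


/-- piecewise constancy of the average potential -/
def PieG (𝕜 : Type) [Field 𝕜] [LinearOrder 𝕜] [IsStrictOrderedRing 𝕜] : Prop :=
  ∀ {G V H : Type} [Group G] [Group H] (D : RD 𝕜 G V) {act : H →* Equiv.Perm V} {DV : Set V}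
    (F : Reg act DV) (_ : Subgroup.closure D.M = ⊤)
    (Ψ : G →* Equiv.Perm ((D.Pt × V) × 𝕜)) [Fintype Ψ.range]
    (_ : ∀ a ∈ D.M, ∀ z, Ψ a z = D.φ1 a z)
    (_ : ∀ g x r, Ψ g (x, r) = ((Ψ g (x, 0)).1, (Ψ g (x, 0)).2 + r))
    (_ : ∀ a ∈ D.M, ∃ r ∈ F.R, ∃ Q : Set H, Q.Finite ∧
      ∀ k, 0 ≤ k → k < D.ν D.L → ∀ v ∈ DV, ∃ q ∈ Q, ∀ v' ∈ DV, r v v' →
        D.act a k v' = D.act a k v ∧ D.tr a k v' = D.tr a k v ∧ D.act2 a k v' = act q v' ∧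
          act q v' ∈ DV)
    (_ : ∀ a ∈ D.M, ∀ k, 0 ≤ k → k < D.ν D.L → ∀ v, v ∉ DV →
      D.act a k v = k ∧ D.tr a k v = 0 ∧ D.act2 a k v = v),
    ∃ r ∈ F.R, ∀ k, 0 ≤ k → k < D.ν D.L → ∀ v ∈ DV, ∀ v' ∈ DV, r v v' →
      D.pos Ψ k v = D.pos Ψ k v'

theorem wd_congr {V : Type} (R : Set 𝕜) (pos : ℤ → V → 𝕜) (n : ℕ) (v v' : V)
    (h : ∀ k : ℤ, 0 ≤ k → k ≤ n → pos k v = pos k v') : RD.wd R pos v n = RD.wd R pos v' n := by
  induction n with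
  | zero =>
    change RD.gen R (pos 0 v) = RD.gen R (pos 0 v')
    rw [h 0 le_rfl (by simp)]
  | succ n ih =>
    change RD.wd R pos v n * RD.gen R (pos ((n : ℤ) + 1) v - pos (n : ℤ) v) =
      RD.wd R pos v' n * RD.gen R (pos ((n : ℤ) + 1) v' - pos (n : ℤ) v')
    rw [ih (fun k h0 h1 => h k h0 (by push_cast; omega)), h (n : ℤ) (by omega) (by push_cast; omega),
      h ((n : ℤ) + 1) (by omega) (by push_cast; omega)]

theorem W_congr {V : Type} (R : Set 𝕜) (pos : ℤ → V → 𝕜) {k : ℤ} (hk : 0 ≤ k) (v v' : V)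
    (h : ∀ j : ℤ, 0 ≤ j → j ≤ k → pos j v = pos j v') : RD.W R pos k v = RD.W R pos k v' :=
  wd_congr R pos k.toNat v v' (fun j h0 h1 => h j h0 (by omega))

/-- **The lift.** An interval factor is replaced by the product of the line and a free group of
finite rank. -/
theorem lift_gen (hPie : PieG 𝕜) (hNu : Nu 𝕜) {G V H : Type} [Group G] [Group H] (hG : ∀ g : G, IsOfFinOrder g)
    (M : Set G) (hMf : M.Finite) (hM1 : (1 : G) ∈ M) (hgen : Subgroup.closure M = ⊤)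
    (htab : Vale.Agent.P192.H479.RD.Tab M) (lam : 𝕜) (hlam : 0 < lam) {act : H →* Equiv.Perm V} {DV : Set V}
    (F : Reg act DV) (ρ : G →* Equiv.Perm (𝕜 × V))
    (hout : ∀ g x v, (x ∉ Set.Ico 0 lam ∨ v ∉ DV) → ρ g (x, v) = (x, v))
    (hPw : ∀ a ∈ M, ((regReal lam).prod F).Pw (ρ a))
    (hmix : ∀ (P : Type) [Finite P] [Nonempty P] (Ψ0 : G →* Equiv.Perm (P × V)),
      (∀ a ∈ M, ∃ r ∈ F.R, ∃ Q : Set H, Q.Finite ∧ ∀ p, ∀ v ∈ DV, ∃ q ∈ Q, ∃ p', ∀ v' ∈ DV,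
        r v v' → Ψ0 a (p, v') = (p', act q v') ∧ act q v' ∈ DV) →
      (∀ a ∈ M, ∀ p v, v ∉ DV → Ψ0 a (p, v) = (p, v)) → Finite Ψ0.range) :
    ∃ (R : Set 𝕜) (_ : R.Finite) (Φ : G →* Equiv.Perm ((𝕜 × FreeGroup R) × V))
      (β : Type) (_ : Finite β) (b : 𝕜 × FreeGroup R → β) (KM : Set (FreeGroup R)),
      KM.Finite ∧ (∀ g, Φ g = 1 → ρ g = 1) ∧
      (∀ a ∈ M, ∃ r ∈ F.R, ∃ Q : Set H, Q.Finite ∧ ∀ v ∈ DV, ∀ j : β, ∃ q ∈ Q, ∃ x ∈ KM,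
        ∀ v' ∈ DV, r v v' → ∀ z, b z = j →
          Φ a (z, v') = ((z.1 + (RD.tau R x).toAdd, x * z.2), act q v') ∧ act q v' ∈ DV) ∧
      (∀ a ∈ M, ∀ z v, v ∉ DV → Φ a (z, v) = (z, v)) := by
  classical
  have h₀ : ∀ a, ∃ (B : Finset 𝕜) (rV : V → V → Prop) (Q : Set (Multiplicative 𝕜 × H)), a ∈ M →
      (rV ∈ F.R ∧ Q.Finite ∧ ∀ x v, 0 ≤ x → x < lam → v ∈ DV → ∃ q ∈ Q, ∀ y v', 0 ≤ y → y < lam →
        v' ∈ DV → Band B x y → rV v v' →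
          ρ a (y, v') = (y + q.1.toAdd, act q.2 v') ∧ act q.2 v' ∈ DV) := by
    intro a
    by_cases ha : a ∈ M
    · obtain ⟨_, ⟨_, ⟨B, rfl⟩, rV, hrV, rfl⟩, Q, hQ, h⟩ := hPw a ha
      refine ⟨B, rV, Q, fun _ => ⟨hrV, hQ, fun x v h0 h1 hv => ?_⟩⟩
      obtain ⟨q, hq, h2⟩ := h (x, v) ⟨⟨h0, h1⟩, hv⟩
      refine ⟨q, hq, fun y v' h3 h4 hv' h5 h6 => ?_⟩
      obtain ⟨h7, h8⟩ := h2 (y, v') ⟨⟨h3, h4⟩, hv'⟩ ⟨h5, h6⟩
      exact ⟨h7, h8.2⟩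
    · exact ⟨∅, fun _ _ => True, ∅, fun h => absurd h ha⟩
  choose B rV Q hBQ using h₀
  let B₀ : Set 𝕜 := ⋃ a ∈ M, (B a : Set 𝕜)
  have hB₀ : B₀.Finite := hMf.biUnion fun a _ => (B a).finite_toSet
  let T₀ : Set 𝕜 := insert 0 (⋃ a ∈ M, (fun q : Multiplicative 𝕜 × H => q.1.toAdd) '' (Q a))
  have hT₀ : T₀.Finite := (hMf.biUnion fun a ha => (hBQ a ha).2.1.image _).insert 0
  obtain ⟨D, hDM, hDL, hDρ⟩ := exists_RD hNu M hMf hM1 lam hlam ρ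
    (fun g x v h => hout g x v (Or.inl h)) B₀ T₀ hB₀ hT₀ (by
      intro a ha v x h0 h1
      by_cases hv : v ∈ DV
      · obtain ⟨q, hq, h2⟩ := (hBQ a ha).2.2 x v h0 h1 hv
        refine ⟨q.1.toAdd, Set.mem_insert_of_mem _ (Set.mem_biUnion ha ⟨q, hq, rfl⟩),
          act q.2 v, fun y h3 h4 h5 => ?_⟩
        exact (h2 y v h3 h4 hv (fun b hb => h5 b (Set.mem_biUnion ha hb))
          (F.refl _ (hBQ a ha).1 v hv)).1
      · refine ⟨0, Set.mem_insert _ _, v, fun y _ _ _ => ?_⟩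
        rw [hout a y v (Or.inr hv), add_zero])
  subst hDM hDL hDρ
  have hνL : 0 < D.ν D.L := by
    rw [← D.ν0]
    exact D.ν_lt (D.ZC0 _ D.C0) D.ZL D.hL
  -- the mixed model
  have key : ∀ a ∈ D.M, ∀ k, 0 ≤ k → k < D.ν D.L → ∀ v ∈ DV, ∃ q ∈ Q a, ∀ v' ∈ DV, rV a v v' →
      D.act a k v' = D.act a k v ∧ D.tr a k v' = D.tr a k v ∧ D.act2 a k v' = act q.2 v' ∧
        act q.2 v' ∈ DV := by
    intro a ha k hk _ v hv
    obtain ⟨q, hq, h⟩ := (hBQ a ha).2.2 (D.p k) v (D.p_ge hk).1 (D.p_ge hk).2 hv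
    refine ⟨q, hq, fun v' hv' hr => ?_⟩
    have e1 := (h (D.p k) v (D.p_ge hk).1 (D.p_ge hk).2 hv (Band.refl _ _)
      (F.refl _ (hBQ a ha).1 v hv)).1
    obtain ⟨e2, e3⟩ := h (D.p k) v' (D.p_ge hk).1 (D.p_ge hk).2 hv' (Band.refl _ _) hr
    unfold RD.act RD.tr RD.act2
    rw [e1, e2]
    exact ⟨rfl, rfl, rfl, e3⟩
  have keyD : ∀ a ∈ D.M, ∀ k, 0 ≤ k → k < D.ν D.L → ∀ v, v ∉ DV →
      D.act a k v = k ∧ D.tr a k v = 0 ∧ D.act2 a k v = v := by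
    intro a ha k hk _ v hv
    unfold RD.act RD.tr RD.act2
    rw [hout a _ v (Or.inr hv)]
    exact ⟨by ring, by ring, rfl⟩
  have hmix' : ∀ Ψ0 : G →* Equiv.Perm (D.Pt × V), (∀ a ∈ D.M, ∀ z, Ψ0 a z = D.φ0 a z) →
      Finite Ψ0.range := by
    intro Ψ0 h0
    have hne : Nonempty D.Pt := ⟨⟨0, le_rfl, hνL⟩⟩
    refine hmix D.Pt Ψ0 ?_ ?_
    · intro a ha
      refine ⟨rV a, (hBQ a ha).1, (fun q : Multiplicative 𝕜 × H => q.2) '' (Q a),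
        (hBQ a ha).2.1.image _, fun p v hv => ?_⟩
      obtain ⟨q, hq, h⟩ := key a ha p.1 p.2.1 p.2.2 v hv
      refine ⟨q.2, ⟨q, hq, rfl⟩, ⟨D.act a p.1 v, D.act_ge p.2.1 p.2.2 ha v⟩, fun v' hv' hr => ?_⟩
      obtain ⟨h1, h2, h3, h4⟩ := h v' hv' hr
      refine ⟨?_, h4⟩
      rw [h0 a ha, D.φ0_of (p, v') (D.act_ge p.2.1 p.2.2 ha v')]
      exact Prod.ext (Subtype.ext h1) h3
    · intro a ha p v hv
      obtain ⟨h1, h2, h3⟩ := keyD a ha p.1 p.2.1 p.2.2 v hv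
      rw [h0 a ha, D.φ0_of (p, v) (D.act_ge p.2.1 p.2.2 ha v)]
      exact Prod.ext (Subtype.ext h1) h3
  obtain ⟨Ψ0, Ψ, h0, h1, hΨ, hb, hfin⟩ := D.exists_mixed hG hgen htab hmix'
  let _ : Fintype Ψ.range := Fintype.ofFinite _
  have hTT : ∀ a ∈ D.M, ∀ x v, 0 ≤ x → x < D.L → (D.ρ a (x, v)).1 - x ∈ T₀ := by
    intro a ha x v hx0 hx1
    by_cases hv : v ∈ DV
    · obtain ⟨q, hq, h⟩ := (hBQ a ha).2.2 x v hx0 hx1 hv
      rw [(h x v hx0 hx1 hv (Band.refl _ _) (F.refl _ (hBQ a ha).1 v hv)).1]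
      refine Set.mem_insert_of_mem _ (Set.mem_biUnion ha ⟨q, hq, ?_⟩)
      change q.1.toAdd = x + q.1.toAdd - x
      ring
    · rw [hout a x v (Or.inr hv)]
      change x - x ∈ T₀
      rw [sub_self]
      exact Set.mem_insert _ _
  have hf := D.finite_tr hgen Ψ h1 hΨ T₀ hT₀ hTT
  obtain ⟨R, hRf, hR0, hR1⟩ := D.exists_R Ψ hνL (RD.finite_avg Ψ hf)
  have hpos := D.pos_spec Ψ h1 hΨ
  obtain ⟨Φ, hΦ, hΦρ⟩ := D.exists_lift R hpos hgen htab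
  obtain ⟨r₀, hr₀, hr₀'⟩ := hPie D F hgen Ψ h1 hΨ (fun a ha =>
    ⟨rV a, (hBQ a ha).1, (fun q : Multiplicative 𝕜 × H => q.2) '' (Q a),
      (hBQ a ha).2.1.image _, fun k hk hkL v hv => by
        obtain ⟨q, hq, h⟩ := key a ha k hk hkL v hv
        exact ⟨q.2, ⟨q, hq, rfl⟩, h⟩⟩) keyD
  let KM : Set (FreeGroup R) := insert 1 (Set.image2 (fun x y => x * y⁻¹)
    {w : FreeGroup R | ∃ k v, 0 ≤ k ∧ k < D.ν D.L ∧ w = RD.W R (D.pos Ψ) k v}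
    {w : FreeGroup R | ∃ k v, 0 ≤ k ∧ k < D.ν D.L ∧ w = RD.W R (D.pos Ψ) k v})
  have hKM : KM.Finite := ((W_finite hRf _ _).image2 _ (W_finite hRf _ _)).insert 1
  let b : (𝕜 × FreeGroup R) → Option D.Pt := fun z =>
    if h : 0 ≤ z.1 ∧ z.1 < D.L then some ⟨D.kk z.1, D.kk_ge h⟩ else none
  refine ⟨R, hRf, Φ, Option D.Pt, inferInstance, b, KM, hKM, ?_, ?_, ?_⟩
  · intro g hg
    apply Equiv.ext
    rintro ⟨x, u⟩
    have h := hΦρ g ((x, 1), u)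
    rw [hg] at h
    exact h.symm
  · intro a ha
    obtain ⟨r₁, hr₁, hr₁'⟩ := F.pull_finite hr₀
      (Q := (fun q : Multiplicative 𝕜 × H => q.2) '' (Q a)) ((hBQ a ha).2.1.image _)
    obtain ⟨r₂, hr₂, hr₂'⟩ := F.inf r₀ hr₀ r₁ hr₁
    obtain ⟨r, hr, hr'⟩ := F.inf (rV a) (hBQ a ha).1 r₂ hr₂
    refine ⟨r, hr, insert 1 ((fun q : Multiplicative 𝕜 × H => q.2) '' (Q a)),
      ((hBQ a ha).2.1.image _).insert 1, fun v hv j => ?_⟩
    rcases j with _ | k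
    · refine ⟨1, Set.mem_insert _ _, 1, Set.mem_insert _ _, fun v' hv' _ z hz => ?_⟩
      have hz' : ¬ (0 ≤ z.1 ∧ z.1 < D.L) := by
        intro h
        change dite _ _ _ = none at hz
        rw [dif_pos h] at hz
        exact Option.some_ne_none _ hz
      have e1 : act 1 v' = v' := by rw [map_one]; rfl
      rw [e1]
      refine ⟨?_, hv'⟩
      rw [hΦ a ha, D.φ2_of' R _ (z, v') hz', map_one, toAdd_one, add_zero, one_mul]
    · obtain ⟨q, hq, h⟩ := key a ha k.1 k.2.1 k.2.2 v hv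
      refine ⟨q.2, Set.mem_insert_of_mem _ ⟨q, hq, rfl⟩, D.cc R (D.pos Ψ) a k.1 v, ?_,
        fun v' hv' hvv z hz => ?_⟩
      · refine Set.mem_insert_of_mem _ ⟨_, ⟨_, _, (D.act_ge k.2.1 k.2.2 ha v).1,
          (D.act_ge k.2.1 k.2.2 ha v).2, rfl⟩, _, ⟨_, _, k.2.1, k.2.2, rfl⟩, rfl⟩
      · have hz' : 0 ≤ z.1 ∧ z.1 < D.L := by
          by_contra h
          change dite _ _ _ = some k at hz
          rw [dif_neg h] at hz
          exact Option.some_ne_none _ hz.symm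
        have hk : D.kk z.1 = k.1 := by
          change dite _ _ _ = some k at hz
          rw [dif_pos hz'] at hz
          exact congrArg Subtype.val (Option.some.inj hz)
        obtain ⟨g1, g2⟩ := hr' v hv v' hv' hvv
        obtain ⟨g3, g4⟩ := hr₂' v hv v' hv' g2
        obtain ⟨h2, h3, h4, h5⟩ := h v' hv' g1
        obtain ⟨_, _, h4', h5'⟩ := h v hv (F.refl _ (hBQ a ha).1 v hv)
        have hcc : D.cc R (D.pos Ψ) a k.1 v' = D.cc R (D.pos Ψ) a k.1 v := by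
          unfold RD.cc
          rw [h2, h4, h4']
          obtain ⟨_, g5⟩ := hr₁' q.2 ⟨q, hq, rfl⟩ v hv v' hv' g4 h5'
          have hag := D.act_ge k.2.1 k.2.2 ha v
          rw [W_congr R (D.pos Ψ) hag.1 (act q.2 v') (act q.2 v) (fun j hj0 hj1 =>
              (hr₀' j hj0 (by omega) _ h5' _ h5 g5).symm),
            W_congr R (D.pos Ψ) k.2.1 v' v (fun j hj0 hj1 =>
              (hr₀' j hj0 (by have := k.2.2; omega) _ hv _ hv' g3).symm)]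
        refine ⟨?_, h5⟩
        rw [hΦ a ha, D.φ2_of R _ (z, v') hz']
        refine Prod.ext (Prod.ext ?_ ?_) ?_
        · change (D.ρ a (z.1, v')).1 = z.1 + (RD.tau R (D.cc R (D.pos Ψ) a k.1 v)).toAdd
          rw [← hcc, ← hk, D.tau_cc R hpos hR0 hR1 hz' ha v']
        · change D.cc R (D.pos Ψ) a (D.kk z.1) v' * z.2 = D.cc R (D.pos Ψ) a k.1 v * z.2
          rw [hk, hcc]
        · change (D.ρ a (z.1, v')).2 = act q.2 v'
          rw [← h4, ← hk, D.act2_kk hz' ha]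
  · intro a ha z v hv
    rw [hΦ a ha]
    by_cases hz : 0 ≤ z.1 ∧ z.1 < D.L
    · rw [D.φ2_of R _ (z, v) hz]
      have hkk := D.kk_ge hz
      obtain ⟨h2, h3, h4⟩ := keyD a ha _ hkk.1 hkk.2 v hv
      have e1 : D.cc R (D.pos Ψ) a (D.kk z.1) v = 1 := by
        unfold RD.cc
        rw [h2, h4, mul_inv_cancel]
      change (((D.ρ a (z.1, v)).1, D.cc R (D.pos Ψ) a (D.kk z.1) v * z.2), (D.ρ a (z.1, v)).2) = _
      rw [e1, hout a _ v (Or.inr hv), one_mul]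
    · rw [D.φ2_of' R _ (z, v) hz]


end Vale.Agent.P192.H794.F
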