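import Vale.Agent.P192.H794.F.F6
import Vale.Agent.P192.H479.RL7

/-!
# P192: products of a free action, counters and an interval of an ordered field
-/

namespace Vale.Agent.P192.H794.F

open Vale.Agent.P192.RL5 (Reg prodAct regPt)
open Vale.Agent.P192.H237 (actW regW)
open Vale.Agent.P192.H479 (Thr FUW thr_reg finite_of_cj finite_range_of_ker cj vfree_fin vfree_free)

variable {𝕜 : Type} [Field 𝕜] [LinearOrder 𝕜] [IsStrictOrderedRing 𝕜]

variable {L U : Type} [Group L] [MulAction L U] {k : ℕ} {W : Fin k → Type}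

/-- **Products of a free action of a group of asymptotic dimension at most one, counters and an
interval.** -/
theorem A2k (hPie : PieG 𝕜) (hNu : Nu 𝕜) (hThr : Thr) (G : Type) [Group G] [Group.IsFinitelyPresented G]
    (hG : ∀ x : G, IsOfFinOrder x)
    (hL : ∀ E : Set L, E.Finite → ∃ m : ℕ, ∃ C : Set L, ∀ x : L,
      {y | Relation.ReflTransGen (fun a b => (a ∈ C ↔ b ∈ C) ∧ ∃ e ∈ E, b = e * a) x y}.encard ≤ m)
    (hU : ∀ (l : L) (u : U), l • u = u → l = 1) (T : ∀ i, Equiv.Perm (W i)) (lam : 𝕜)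
    (ρ : G →* Equiv.Perm (𝕜 × (U × (∀ i, W i))))
    (hout : ∀ g x v, x ∉ Set.Ico 0 lam → ρ g (x, v) = (x, v))
    (hPw : ∀ g, ((regReal lam).prod (FUW L U T)).Pw (ρ g)) : Finite ρ.range := by
  classical
  rcases le_or_gt lam 0 with hlam | hlam
  · have h1 : ∀ g, ρ g = 1 := by
      intro g
      apply Equiv.ext
      rintro ⟨x, u⟩
      refine hout g x u ?_
      rintro ⟨h2, h3⟩
      linarith
    have : Subsingleton ρ.range := by
      refine ⟨?_⟩
      rintro ⟨_, g, rfl⟩ ⟨_, g', rfl⟩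
      apply Subtype.ext
      change ρ g = ρ g'
      rw [h1, h1]
    infer_instance
  obtain ⟨M, hMf, hM1, hMinv, hgen, htab⟩ := H260.exists_table G
  obtain ⟨R, hRf, Φ, β, hβ, b, KM, hKM, hΦρ, hΦM, -⟩ := lift_gen hPie hNu hG M hMf hM1 hgen htab lam
    hlam (FUW L U T) ρ (fun g x v h => hout g x v (by
      rcases h with h | h
      · exact h
      · exact absurd ⟨trivial, trivial⟩ h)) (fun a _ => hPw a) (by
    intro P _ _ Ψ0 h1 _
    let _ : Fintype P := Fintype.ofFinite _
    have hn : NeZero (Fintype.card P) := ⟨Fintype.card_ne_zero⟩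
    let QG : Type := Multiplicative (ZMod (Fintype.card P))
    have hQf : Finite QG := inferInstanceAs (Finite (ZMod (Fintype.card P)))
    let e : P ≃ QG := (Fintype.equivOfCardEq (by rw [ZMod.card])).trans
      (Multiplicative.ofAdd (α := ZMod (Fintype.card P)))
    let E : (P × (U × (∀ i, W i))) ≃ (QG × (U × (∀ i, W i))) := e.prodCongr (Equiv.refl _)
    refine finite_of_cj E Ψ0 ?_
    refine thr_reg hThr G hG M hMf hgen hMinv hL hU T QG (vfree_fin QG) QG
      (fun x v h => mul_eq_right.1 h) _ QG id Set.univ Set.finite_univ ?_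
    intro a ha
    obtain ⟨r, hr, Q, hQ, h2⟩ := h1 a ha
    refine ⟨r, hr, Q, hQ, fun v j => ?_⟩
    obtain ⟨q, hq, p', h3⟩ := h2 (e.symm j) v ⟨trivial, trivial⟩
    refine ⟨q, hq, e p' * j⁻¹, Set.mem_univ _, fun v' hvv z hz => ?_⟩
    have hz : z = j := hz
    subst hz
    change E (Ψ0 a (e.symm z, v')) = _
    rw [(h3 v' ⟨trivial, trivial⟩ hvv).1]
    refine Prod.ext ?_ rfl
    change e p' = e p' * z⁻¹ * z
    rw [inv_mul_cancel_right])
  have hRfin : Finite R := hRf
  let _ := fact (RD.tau R)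
  have hΦf : Finite Φ.range := by
    refine thr_reg hThr G hG M hMf hgen hMinv hL hU T (FreeGroup R) (vfree_free R)
      (𝕜 × FreeGroup R) ?_ Φ β b KM hKM ?_
    · intro f z hz
      have h1 : f * z.2 = z.2 := congrArg Prod.snd hz
      exact mul_eq_right.1 h1
    · intro a ha
      obtain ⟨r, hr, Q, hQ, h2⟩ := hΦM a ha
      refine ⟨r, hr, Q, hQ, fun v j => ?_⟩
      obtain ⟨q, hq, x, hx, h3⟩ := h2 v ⟨trivial, trivial⟩ j
      refine ⟨q, hq, x, hx, fun v' hvv z hz => ?_⟩
      exact (h3 v' ⟨trivial, trivial⟩ hvv z hz).1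
  exact finite_range_of_ker Φ ρ hΦf hΦρ


end Vale.Agent.P192.H794.F
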