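import Vale.Agent.P192.H826.PMUnif

/-!
# P192: ultraproducts of ordered fields
-/

namespace Vale.Agent.P192.H794.F

open Filter Vale.Agent.P192.PMUnif

section UPF

variable {ι : Type} (U : Ultrafilter ι) {K : ι → Type}

/-- pointwise unary operations -/
def map1 {X Y : ι → Type} (f : ∀ i, X i → Y i) : UP U X → UP U Y :=
  Quotient.map (fun a i => f i (a i)) (by
    intro a b h
    have h1 : ∀ᶠ i in (U : Filter ι), a i = b i := h
    change ∀ᶠ i in (U : Filter ι), f i (a i) = f i (b i)
    filter_upwards [h1] with i e1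
    rw [e1])

theorem map1_mk {X Y : ι → Type} (f : ∀ i, X i → Y i) (a : ∀ i, X i) :
    map1 U f (mk U a) = mk U fun i => f i (a i) := rfl

/-- pointwise binary operations -/
def map2 {X Y Z : ι → Type} (f : ∀ i, X i → Y i → Z i) : UP U X → UP U Y → UP U Z :=
  Quotient.map₂ (fun a b i => f i (a i) (b i)) (by
    intro a b h a' b' h'
    have h1 : ∀ᶠ i in (U : Filter ι), a i = b i := h
    have h2 : ∀ᶠ i in (U : Filter ι), a' i = b' i := h'
    change ∀ᶠ i in (U : Filter ι), f i (a i) (a' i) = f i (b i) (b' i)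
    filter_upwards [h1, h2] with i e1 e2
    rw [e1, e2])

theorem map2_mk {X Y Z : ι → Type} (f : ∀ i, X i → Y i → Z i) (a : ∀ i, X i) (b : ∀ i, Y i) :
    map2 U f (mk U a) (mk U b) = mk U fun i => f i (a i) (b i) := rfl

variable [∀ i, Field (K i)]

instance : Add (UP U K) := ⟨map2 U fun _ x y => x + y⟩
instance : Zero (UP U K) := ⟨mk U fun _ => 0⟩
instance : Neg (UP U K) := ⟨map1 U fun _ x => -x⟩
instance : Mul (UP U K) := ⟨map2 U fun _ x y => x * y⟩
instance : One (UP U K) := ⟨mk U fun _ => 1⟩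

/-- the ultraproduct as a ring -/
@[reducible] def ringUP : CommRing (UP U K) where
  add_assoc a b c := by
    obtain ⟨f, rfl⟩ := exists_mk U a
    obtain ⟨g, rfl⟩ := exists_mk U b
    obtain ⟨h, rfl⟩ := exists_mk U c
    exact congrArg (mk U) (funext fun i => add_assoc _ _ _)
  zero_add a := by
    obtain ⟨f, rfl⟩ := exists_mk U a
    exact congrArg (mk U) (funext fun i => zero_add _)
  add_zero a := by
    obtain ⟨f, rfl⟩ := exists_mk U a
    exact congrArg (mk U) (funext fun i => add_zero _)
  add_comm a b := by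
    obtain ⟨f, rfl⟩ := exists_mk U a
    obtain ⟨g, rfl⟩ := exists_mk U b
    exact congrArg (mk U) (funext fun i => add_comm _ _)
  neg_add_cancel a := by
    obtain ⟨f, rfl⟩ := exists_mk U a
    exact congrArg (mk U) (funext fun i => neg_add_cancel _)
  mul_assoc a b c := by
    obtain ⟨f, rfl⟩ := exists_mk U a
    obtain ⟨g, rfl⟩ := exists_mk U b
    obtain ⟨h, rfl⟩ := exists_mk U c
    exact congrArg (mk U) (funext fun i => mul_assoc _ _ _)
  one_mul a := by
    obtain ⟨f, rfl⟩ := exists_mk U a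
    exact congrArg (mk U) (funext fun i => one_mul _)
  mul_one a := by
    obtain ⟨f, rfl⟩ := exists_mk U a
    exact congrArg (mk U) (funext fun i => mul_one _)
  zero_mul a := by
    obtain ⟨f, rfl⟩ := exists_mk U a
    exact congrArg (mk U) (funext fun i => zero_mul _)
  mul_zero a := by
    obtain ⟨f, rfl⟩ := exists_mk U a
    exact congrArg (mk U) (funext fun i => mul_zero _)
  left_distrib a b c := by
    obtain ⟨f, rfl⟩ := exists_mk U a
    obtain ⟨g, rfl⟩ := exists_mk U b
    obtain ⟨h, rfl⟩ := exists_mk U c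
    exact congrArg (mk U) (funext fun i => left_distrib _ _ _)
  right_distrib a b c := by
    obtain ⟨f, rfl⟩ := exists_mk U a
    obtain ⟨g, rfl⟩ := exists_mk U b
    obtain ⟨h, rfl⟩ := exists_mk U c
    exact congrArg (mk U) (funext fun i => right_distrib _ _ _)
  mul_comm a b := by
    obtain ⟨f, rfl⟩ := exists_mk U a
    obtain ⟨g, rfl⟩ := exists_mk U b
    exact congrArg (mk U) (funext fun i => mul_comm _ _)
  nsmul := nsmulRec
  zsmul := zsmulRec

/-- the ultraproduct of fields -/
noncomputable instance fieldUP : Field (UP U K) where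
  __ := ringUP U
  inv := map1 U fun _ x => x⁻¹
  exists_pair_ne := ⟨mk U fun _ => 0, mk U fun _ => 1, by
    intro h
    rw [mk_eq] at h
    obtain ⟨i, hi⟩ := h.exists
    exact zero_ne_one hi⟩
  mul_inv_cancel a ha := by
    obtain ⟨f, rfl⟩ := exists_mk U a
    have h1 : ¬ ∀ᶠ i in (U : Filter ι), f i = 0 := fun h => ha ((mk_eq U).2 h)
    rw [← Ultrafilter.eventually_not] at h1
    refine (mk_eq U).2 ?_
    filter_upwards [h1] with i e1
    exact mul_inv_cancel₀ e1
  inv_zero := congrArg (mk U) (funext fun i => inv_zero)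
  nnqsmul := _
  nnqsmul_def _ _ := rfl
  qsmul := _
  qsmul_def _ _ := rfl

theorem mk_add (f g : ∀ i, K i) : mk U f + mk U g = mk U fun i => f i + g i := rfl

theorem mk_zero : (0 : UP U K) = mk U fun _ => 0 := rfl

theorem mk_mul (f g : ∀ i, K i) : mk U f * mk U g = mk U fun i => f i * g i := rfl

theorem mk_neg (f : ∀ i, K i) : - mk U f = mk U fun i => - f i := rfl

theorem mk_sub (f g : ∀ i, K i) : mk U f - mk U g = mk U fun i => f i - g i := by
  rw [sub_eq_add_neg, mk_neg, mk_add]
  exact congrArg (mk U) (funext fun i => (sub_eq_add_neg _ _).symm)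

variable [∀ i, LinearOrder (K i)] [∀ i, IsStrictOrderedRing (K i)]

instance orderedUP : IsOrderedAddMonoid (UP U K) where
  add_le_add_left a b h c := by
    obtain ⟨f, rfl⟩ := exists_mk U a
    obtain ⟨g, rfl⟩ := exists_mk U b
    obtain ⟨k, rfl⟩ := exists_mk U c
    have h1 := (mk_le U).1 h
    refine (mk_le U).2 ?_
    filter_upwards [h1] with i e1
    exact add_le_add_left e1 _

instance strictUP : IsStrictOrderedRing (UP U K) := by
  have h0 : ZeroLEOneClass (UP U K) :=
    ⟨(mk_le U).2 (Eventually.of_forall fun i => zero_le_one)⟩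
  refine IsStrictOrderedRing.of_mul_pos ?_
  intro a b ha hb
  obtain ⟨f, rfl⟩ := exists_mk U a
  obtain ⟨g, rfl⟩ := exists_mk U b
  have h1 := (mk_lt U).1 ha
  have h2 := (mk_lt U).1 hb
  refine (mk_lt U).2 ?_
  filter_upwards [h1, h2] with i e1 e2
  exact mul_pos e1 e2

end UPF

end Vale.Agent.P192.H794.F
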