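import Vale.Agent.P192.H794.F.G1

/-!
# P192: families of actions: the scheme of the ultraproduct
-/

namespace Vale.Agent.P192.H794.F

open Filter Vale.Agent.P192.PMUnif

/-- the normal subgroups of finite index -/
abbrev Idx (G : Type) [Group G] : Type := {N : Subgroup G // N.Normal ∧ N.FiniteIndex}

/-- **The scheme.** -/
theorem scheme {G : Type} [Group G] (hfg : Group.FG G) (X : Idx G → Type)
    (τ : ∀ i, G →* Equiv.Perm (X i)) (g : Idx G → G) (hg : ∀ i, g i ∈ i.1)
    (hne : ∀ i, τ i (g i) ≠ 1) (hfin : ∀ U : Ultrafilter (Idx G), Finite (act U τ).range) :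
    False := by
  have hdir : IsDirected (Idx G) (fun a b => a ≥ b) := by
    refine ⟨?_⟩
    rintro ⟨A, hA1, hA2⟩ ⟨B, hB1, hB2⟩
    refine ⟨⟨A ⊓ B, inferInstance, inferInstance⟩, ?_, ?_⟩
    · show A ⊓ B ≤ A
      exact inf_le_left
    · show A ⊓ B ≤ B
      exact inf_le_right
  have : Nonempty (Idx G) := ⟨⟨⊤, inferInstance, inferInstance⟩⟩
  let U : Ultrafilter (Idx G) := Ultrafilter.of Filter.atBot
  have hU : ∀ N0 : Idx G, ∀ᶠ N in (U : Filter _), N ≤ N0 :=
    fun N0 => (Ultrafilter.of_le Filter.atBot) (Filter.eventually_le_atBot N0)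
  have hX : ∀ i, Nonempty (X i) := by
    intro i
    by_contra h2
    rw [not_nonempty_iff] at h2
    apply hne i
    ext x
    exact isEmptyElim x
  have hf := hfin U
  have hker : (act U τ).ker.FiniteIndex := Subgroup.finiteIndex_ker _
  obtain ⟨T, hT⟩ := (Group.fg_iff_subgroup_fg _).1
    (Subgroup.fg_of_index_ne_zero (H := (act U τ).ker))
  have h3 : ∀ᶠ i in (U : Filter _), ∀ t ∈ T, τ i t = 1 := by
    rw [Filter.eventually_all_finset]
    intro t ht'
    apply act_eq_one U τ hX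
    have h4 : t ∈ (act U τ).ker := by
      rw [← hT]
      exact Subgroup.subset_closure ht'
    exact h4
  obtain ⟨i, hi1, hi2⟩ := ((hU ⟨(act U τ).ker, inferInstance, hker⟩).and h3).exists
  apply hne i
  have h4 : (act U τ).ker ≤ (τ i).ker := by
    rw [← hT, Subgroup.closure_le]
    intro t ht'
    exact hi2 t ht'
  exact h4 (hi1 (hg i))

section tools

variable {ι : Type} (U : Ultrafilter ι)

theorem ev_iff {p q : ι → Prop} (h : (∀ᶠ i in (U : Filter ι), p i) ↔ ∀ᶠ i in (U : Filter ι), q i) :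
    ∀ᶠ i in (U : Filter ι), (p i ↔ q i) := by
  by_cases hp : ∀ᶠ i in (U : Filter ι), p i
  · filter_upwards [hp, h.1 hp] with i h1 h2
    exact ⟨fun _ => h2, fun _ => h1⟩
  · have hq : ¬ ∀ᶠ i in (U : Filter ι), q i := fun h' => hp (h.2 h')
    rw [← Ultrafilter.eventually_not] at hp hq
    filter_upwards [hp, hq] with i h1 h2
    exact ⟨fun h => absurd h h1, fun h => absurd h h2⟩

/-- the limit colour -/
theorem exists_col (m : ℕ) (x : UP U (fun _ : ι => Fin m)) :
    ∃ a : Fin m, x = mk U fun _ => a := by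
  obtain ⟨f, rfl⟩ := exists_mk U x
  have h : ∃ a : Fin m, ∀ᶠ i in (U : Filter ι), f i = a := by
    rw [← Ultrafilter.eventually_exists_iff]
    exact Eventually.of_forall fun i => ⟨f i, rfl⟩
  obtain ⟨a, ha⟩ := h
  exact ⟨a, (mk_eq U).2 ha⟩

/-- the limit colour -/
noncomputable def col (m : ℕ) (x : UP U (fun _ : ι => Fin m)) : Fin m := (exists_col U m x).choose

theorem col_inj {m : ℕ} {x y : UP U (fun _ : ι => Fin m)} (h : col U m x = col U m y) : x = y := by
  rw [(exists_col U m x).choose_spec, (exists_col U m y).choose_spec]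
  exact congrArg (fun a => mk U fun _ => a) h

/-- an enumeration of a small finite set -/
theorem exists_enum {K : Type} (d : K) (B : Finset K) {m : ℕ} (h : B.card ≤ m) :
    ∃ β : Fin (m + 1) → K, ∀ b ∈ B, ∃ j, β j = b := by
  classical
  refine ⟨fun j => if hj : (j : ℕ) < B.card then (B.equivFin.symm ⟨j, hj⟩).1 else d, ?_⟩
  intro b hb
  let j := B.equivFin ⟨b, hb⟩
  have hj : (j : ℕ) < B.card := j.2
  refine ⟨⟨j, by omega⟩, ?_⟩
  change dite _ _ _ = b
  rw [dif_pos hj]
  change (B.equivFin.symm (B.equivFin ⟨b, hb⟩)).1 = b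
  rw [Equiv.symm_apply_apply]

variable {K : ι → Type} [∀ i, Field (K i)] [∀ i, LinearOrder (K i)]

theorem mem_ico (x L : ∀ i, K i) :
    mk U x ∈ Set.Ico 0 (mk U L) ↔ ∀ᶠ i in (U : Filter ι), x i ∈ Set.Ico 0 (L i) := by
  constructor
  · rintro ⟨h1, h2⟩
    have h3 := (mk_le U).1 (show mk U (fun _ => 0) ≤ mk U x from h1)
    have h4 := (mk_lt U).1 h2
    filter_upwards [h3, h4] with i e1 e2
    exact ⟨e1, e2⟩
  · intro h
    refine ⟨?_, ?_⟩
    · change mk U (fun _ => 0) ≤ mk U x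
      rw [mk_le]
      filter_upwards [h] with i e
      exact e.1
    · rw [mk_lt]
      filter_upwards [h] with i e
      exact e.2

theorem not_mem_ico (x L : ∀ i, K i) (h : mk U x ∉ Set.Ico 0 (mk U L)) :
    ∀ᶠ i in (U : Filter ι), x i ∉ Set.Ico 0 (L i) := by
  rw [mem_ico] at h
  exact Ultrafilter.eventually_not.2 h

/-- points which are not separated -/
theorem band_ev {n : ℕ} (β : ∀ i, Fin n → K i) (x y : ∀ i, K i)
    (h : ∀ j, mk U (fun i => β i j) ≤ mk U x ↔ mk U (fun i => β i j) ≤ mk U y) :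
    ∀ᶠ i in (U : Filter ι), ∀ j, β i j ≤ x i ↔ β i j ≤ y i := by
  rw [eventually_all]
  intro j
  exact ev_iff U (h j)

end tools

end Vale.Agent.P192.H794.F
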