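import Vale.Agent.P192.H794.F.G2
import Vale.Agent.P192.H794.F.G0
import Vale.Agent.P192.H794.F.F10

/-!
# P192: free actions, counters and an interval of an ordered field: the uniform theorem
-/

namespace Vale.Agent.P192.H794.F

open Filter Vale.Agent.P192.PMUnif
open Vale.Agent.P192.H479 (finite_of_cj cj cj_apply)

section split

variable {ι : Type} (U : Ultrafilter ι)

/-- the coordinates of the ultraproduct of the products -/
def splitF {V : ι → Type} {k : ℕ} {W : ι → Fin k → Type} {K : ι → Type}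
    (z : UP U (fun i => V i × (∀ j, W i j) × K i)) :
    UP U V × (∀ j, UP U (fun i => W i j)) × UP U K :=
  (map1 U (fun _ z => z.1) z, fun j => map1 U (fun _ z => z.2.1 j) z, map1 U (fun _ z => z.2.2) z)

theorem splitF_bij {V : ι → Type} {k : ℕ} {W : ι → Fin k → Type} {K : ι → Type} :
    Function.Bijective (splitF U (V := V) (W := W) (K := K)) := by
  constructor
  · intro x y h
    obtain ⟨f, rfl⟩ := exists_mk U x
    obtain ⟨g, rfl⟩ := exists_mk U y
    have h1 := (mk_eq U).1 (congrArg Prod.fst h)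
    have h2 := fun j => (mk_eq U).1 (congrFun (congrArg (fun z => z.2.1) h) j)
    have h3 := (mk_eq U).1 (congrArg (fun z => z.2.2) h)
    rw [← eventually_all] at h2
    refine (mk_eq U).2 ?_
    filter_upwards [h1, h2, h3] with i e1 e2 e3
    exact Prod.ext e1 (Prod.ext (funext e2) e3)
  · rintro ⟨a, b, c⟩
    obtain ⟨f, rfl⟩ := exists_mk U a
    choose g hg using fun j => exists_mk U (b j)
    obtain ⟨h, rfl⟩ := exists_mk U c
    refine ⟨mk U fun i => (f i, fun j => g j i, h i), ?_⟩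
    refine Prod.ext rfl (Prod.ext ?_ rfl)
    funext j
    exact hg j

/-- the coordinates of the ultraproduct of the products -/
noncomputable def splitE {V : ι → Type} {k : ℕ} {W : ι → Fin k → Type} {K : ι → Type} :
    UP U (fun i => V i × (∀ j, W i j) × K i) ≃
      UP U V × (∀ j, UP U (fun i => W i j)) × UP U K :=
  Equiv.ofBijective (splitF U) (splitF_bij U)

theorem splitE_mk {V : ι → Type} {k : ℕ} {W : ι → Fin k → Type} {K : ι → Type}
    (f : ∀ i, V i × (∀ j, W i j) × K i) :
    splitE U (mk U f) = (mk U fun i => (f i).1, fun j => mk U fun i => (f i).2.1 j,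
      mk U fun i => (f i).2.2) := rfl

theorem splitE_symm {V : ι → Type} {k : ℕ} {W : ι → Fin k → Type} {K : ι → Type}
    (a : ∀ i, V i) (b : ∀ j, ∀ i, W i j) (c : ∀ i, K i) :
    (splitE U (V := V) (W := W) (K := K)).symm (mk U a, fun j => mk U (b j), mk U c) =
      mk U fun i => (a i, fun j => b j i, c i) := by
  rw [Equiv.symm_apply_eq, splitE_mk]

/-- the ultraproduct of actions -/
@[reducible] def smulUP (L : Type) [Group L] {V : ι → Type} [∀ i, MulAction L (V i)] :
    MulAction L (UP U V) where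
  smul l := map1 U fun _ v => l • v
  one_smul x := by
    obtain ⟨f, rfl⟩ := exists_mk U x
    exact congrArg (mk U) (funext fun i => one_smul L _)
  mul_smul a b x := by
    obtain ⟨f, rfl⟩ := exists_mk U x
    exact congrArg (mk U) (funext fun i => mul_smul a b _)

/-- the ultraproduct of the powers of permutations -/
noncomputable def powUP {W : ι → Type} (T : ∀ i, Equiv.Perm (W i)) : Equiv.Perm (UP U W) :=
  act U (fun i => zpowersHom (Equiv.Perm (W i)) (T i)) (Multiplicative.ofAdd 1)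

theorem powUP_zpow {W : ι → Type} (T : ∀ i, Equiv.Perm (W i)) (z : ℤ) (f : ∀ i, W i) :
    (powUP U T ^ z) (mk U f) = mk U fun i => (T i ^ z) (f i) := by
  unfold powUP
  rw [← map_zpow, ← ofAdd_zsmul, smul_eq_mul, mul_one, act_mk]
  rfl

end split

/-- a system of generators acting on `V × W 0 × ... × W (k - 1) × [0, lam)` -/
structure Sys1 (G L : Type) [Group G] [Group L] (S : Set G) (k m : ℕ)
    (K₀ : Set (L × (Fin k → ℤ))) where
  𝕜 : Type
  [i1 : Field 𝕜]
  [i2 : LinearOrder 𝕜]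
  [i3 : IsStrictOrderedRing 𝕜]
  V : Type
  [i4 : MulAction L V]
  free : ∀ (l : L) (u : V), l • u = u → l = 1
  W : Fin k → Type
  T : ∀ i, Equiv.Perm (W i)
  lam : 𝕜
  ρ : G →* Equiv.Perm (V × (∀ i, W i) × 𝕜)
  out : ∀ s ∈ S, ∀ u w x, x ∉ Set.Ico 0 lam → ρ s (u, w, x) = (u, w, x)
  pw : ∀ s ∈ S, ∃ (c : ∀ i, W i → Fin m) (B R : Finset 𝕜), B.card ≤ m ∧ R.card ≤ m ∧
    ∀ (u : V) (w : ∀ i, W i), ∀ x ∈ Set.Ico 0 lam, ∃ q ∈ K₀, ∃ t ∈ R,
      ∀ w' : ∀ i, W i, (∀ i, c i (w i) = c i (w' i)) →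
      ∀ x' ∈ Set.Ico 0 lam, (∀ b ∈ B, b ≤ x ↔ b ≤ x') →
        ρ s (u, w', x') = (q.1 • u, fun i => (T i ^ q.2 i) (w' i), x' + t)

attribute [instance] Sys1.i1 Sys1.i2 Sys1.i3 Sys1.i4

/-- **The ultraproduct of systems has finite image.** -/
theorem ultra_one (G : Type) [Group G] [Group.IsFinitelyPresented G]
    (hG : ∀ x : G, IsOfFinOrder x) (S : Set G) (hS : Subgroup.closure S = ⊤)
    (L : Type) [Group L]
    (hL : ∀ E : Set L, E.Finite → ∃ m : ℕ, ∃ C : Set L, ∀ x : L,
      {y | Relation.ReflTransGen (fun a b => (a ∈ C ↔ b ∈ C) ∧ ∃ e ∈ E, b = e * a) x y}.encard ≤ m)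
    (k m : ℕ) (K₀ : Set (L × (Fin k → ℤ))) (hK₀ : K₀.Finite)
    {ι : Type} (D : ι → Sys1 G L S k m K₀) (U : Ultrafilter ι) :
    Finite (act U (fun i => (D i).ρ)).range := by
  classical
  let K : ι → Type := fun i => (D i).𝕜
  let _ : ∀ i, Field (K i) := fun i => (D i).i1
  let _ : ∀ i, LinearOrder (K i) := fun i => (D i).i2
  have hso : ∀ i, IsStrictOrderedRing (K i) := fun i => (D i).i3
  let V : ι → Type := fun i => (D i).V
  let _ : ∀ i, MulAction L (V i) := fun i => (D i).i4
  let W : ι → Fin k → Type := fun i => (D i).W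
  let aV : MulAction L (UP U V) := smulUP U L
  let T' : ∀ j, Equiv.Perm (UP U (fun i => W i j)) := fun j => powUP U fun i => (D i).T j
  let lam : ∀ i, K i := fun i => (D i).lam
  have haV : ∀ (l : L) (f : ∀ i, V i), l • mk U f = mk U fun i => l • f i := fun _ _ => rfl
  have hfree : ∀ (l : L) (u : UP U V), l • u = u → l = 1 := by
    intro l u h
    obtain ⟨f, rfl⟩ := exists_mk U u
    rw [haV, mk_eq] at h
    obtain ⟨i, hi⟩ := h.exists
    exact (D i).free l _ hi
  refine finite_of_cj (splitE U (V := V) (W := W) (K := K)) _ ?_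
  set ρ' := (cj (splitE U (V := V) (W := W) (K := K))).comp (act U fun i => (D i).ρ) with hρ'
  have hmk : ∀ (g : G) (a : ∀ i, V i) (b : ∀ j, ∀ i, W i j) (c : ∀ i, K i),
      ρ' g (mk U a, fun j => mk U (b j), mk U c) =
        splitE U (mk U fun i => (D i).ρ g (a i, fun j => b j i, c i)) := by
    intro g a b c
    change splitE U (act U (fun i => (D i).ρ) g ((splitE U).symm _)) = _
    rw [splitE_symm, act_mk]
  refine main_one nu G hG S hS L hL (UP U V) hfree k (fun j => UP U fun i => W i j) T'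
    (mk U lam) ρ' ?_ ?_
  · intro s hs u w x hx
    obtain ⟨a, rfl⟩ := exists_mk U u
    choose b hb using fun j => exists_mk U (w j)
    obtain rfl : (fun j => mk U (b j)) = w := funext hb
    obtain ⟨c, rfl⟩ := exists_mk U x
    rw [hmk]
    have h1 := not_mem_ico U c lam hx
    have h2 : (mk U fun i => (D i).ρ s (a i, fun j => b j i, c i)) =
        mk U fun i => (a i, fun j => b j i, c i) := by
      rw [mk_eq]
      filter_upwards [h1] with i e1
      exact (D i).out s hs _ _ _ e1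
    rw [h2]
    rfl
  · intro s hs
    choose c B R hB hR hpw using fun i => (D i).pw s hs
    choose β hβ using fun i => exists_enum (0 : K i) (B i) (hB i)
    choose r hr using fun i => exists_enum (0 : K i) (R i) (hR i)
    refine ⟨m, fun j y => col U m (map1 U (fun i => c i j) y),
      Finset.univ.image fun t => mk U fun i => β i t,
      (fun p : (L × (Fin k → ℤ)) × Fin (m + 1) => (p.1.1, p.1.2, mk U fun i => r i p.2)) ''
        (K₀ ×ˢ Set.univ), (hK₀.prod Set.finite_univ).image _, ?_⟩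
    intro u w x hx
    obtain ⟨a, rfl⟩ := exists_mk U u
    choose b hb using fun j => exists_mk U (w j)
    obtain rfl : (fun j => mk U (b j)) = w := funext hb
    obtain ⟨x, rfl⟩ := exists_mk U x
    have hx' := (mem_ico U x lam).1 hx
    have h1 : ∀ᶠ i in (U : Filter ι), ∃ q ∈ K₀, ∃ t : Fin (m + 1),
        ∀ w' : ∀ j, W i j, (∀ j, c i j (b j i) = c i j (w' j)) →
        ∀ x' ∈ Set.Ico 0 (lam i), (∀ b ∈ B i, b ≤ x i ↔ b ≤ x') →
          (D i).ρ s (a i, w', x') = (q.1 • a i, fun j => ((D i).T j ^ q.2 j) (w' j), x' + r i t) := by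
      filter_upwards [hx'] with i e1
      obtain ⟨q, hq, t, ht, h2⟩ := hpw i (a i) (fun j => b j i) (x i) e1
      obtain ⟨t', ht'⟩ := hr i t ht
      refine ⟨q, hq, t', ?_⟩
      rw [ht']
      exact h2
    rw [Ultrafilter.eventually_exists_mem_iff hK₀] at h1
    obtain ⟨q, hq, h1⟩ := h1
    rw [Ultrafilter.eventually_exists_iff] at h1
    obtain ⟨t, h1⟩ := h1
    refine ⟨_, ⟨(q, t), ⟨hq, trivial⟩, rfl⟩, ?_⟩
    intro w' hw' x' hx'' hband
    choose b' hb' using fun j => exists_mk U (w' j)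
    obtain rfl : (fun j => mk U (b' j)) = w' := funext hb'
    obtain ⟨x', rfl⟩ := exists_mk U x'
    have h3 : ∀ᶠ i in (U : Filter ι), ∀ j, c i j (b j i) = c i j (b' j i) := by
      rw [eventually_all]
      intro j
      exact (mk_eq U).1 (col_inj U (hw' j))
    have h4 := (mem_ico U x' lam).1 hx''
    have h5 : ∀ᶠ i in (U : Filter ι), ∀ t, β i t ≤ x i ↔ β i t ≤ x' i :=
      band_ev U β x x' fun t => hband _ (Finset.mem_image_of_mem _ (Finset.mem_univ t))
    rw [hmk]
    have h6 : (mk U fun i => (D i).ρ s (a i, fun j => b' j i, x' i)) =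
        mk U fun i => (q.1 • a i, fun j => ((D i).T j ^ q.2 j) (b' j i), x' i + r i t) := by
      rw [mk_eq]
      filter_upwards [h1, h3, h4, h5] with i e1 e3 e4 e5
      refine e1 _ e3 _ e4 ?_
      intro b hb
      obtain ⟨t, rfl⟩ := hβ i b hb
      exact e5 t
    rw [h6, splitE_mk]
    refine Prod.ext rfl (Prod.ext ?_ rfl)
    funext j
    exact (powUP_zpow U (fun i => (D i).T j) (q.2 j) (b' j)).symm

/-- **Free action, counters, interval: the uniform theorem.** -/
theorem unif_one (G : Type) [Group G] [Group.IsFinitelyPresented G]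
    (hG : ∀ x : G, IsOfFinOrder x) (S : Set G) (hS : Subgroup.closure S = ⊤)
    (L : Type) [Group L]
    (hL : ∀ E : Set L, E.Finite → ∃ m : ℕ, ∃ C : Set L, ∀ x : L,
      {y | Relation.ReflTransGen (fun a b => (a ∈ C ↔ b ∈ C) ∧ ∃ e ∈ E, b = e * a) x y}.encard ≤ m)
    (k m : ℕ) (K₀ : Set (L × (Fin k → ℤ))) (hK₀ : K₀.Finite) :
    ∃ N : Subgroup G, N.Normal ∧ N.FiniteIndex ∧ ∀ D : Sys1 G L S k m K₀, ∀ g ∈ N, D.ρ g = 1 := by
  by_contra hcon
  push Not at hcon
  have h1 : ∀ N : Idx G, ∃ D : Sys1 G L S k m K₀, ∃ g ∈ N.1, D.ρ g ≠ 1 :=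
    fun N => hcon N.1 N.2.1 N.2.2
  choose D g hg hne using h1
  have hfg : Group.FG G := by
    obtain ⟨n, φ, hφ, -⟩ := (inferInstance : Group.IsFinitelyPresented G)
    exact Group.fg_of_surjective hφ
  exact scheme hfg _ (fun i => (D i).ρ) g hg hne
    (fun U => ultra_one G hG S hS L hL k m K₀ hK₀ D U)

end Vale.Agent.P192.H794.F
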