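import Vale.Agent.P192.H794.F.G3

/-!
# P192: two intervals of an ordered field and counters, rectangle exchanges: the uniform theorems
-/

namespace Vale.Agent.P192.H794.F

open Filter Vale.Agent.P192.PMUnif
open Vale.Agent.P192.H479 (finite_of_cj cj cj_apply)

/-- a system of generators acting on `[0, lam) × W 0 × ... × W (k - 1) × [0, mu)` -/
structure Sys2 (G : Type) [Group G] (S : Set G) (k m : ℕ) (Z₀ : Set (Fin k → ℤ)) where
  𝕜 : Type
  [i1 : Field 𝕜]
  [i2 : LinearOrder 𝕜]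
  [i3 : IsStrictOrderedRing 𝕜]
  W : Fin k → Type
  T : ∀ i, Equiv.Perm (W i)
  lam : 𝕜
  mu : 𝕜
  ρ : G →* Equiv.Perm (𝕜 × (∀ i, W i) × 𝕜)
  out : ∀ s ∈ S, ∀ x w y, (x ∉ Set.Ico 0 lam ∨ y ∉ Set.Ico 0 mu) → ρ s (x, w, y) = (x, w, y)
  pw : ∀ s ∈ S, ∃ (c : ∀ i, W i → Fin m) (B R : Finset 𝕜), B.card ≤ m ∧ R.card ≤ m ∧
    ∀ x ∈ Set.Ico 0 lam, ∀ w : ∀ i, W i, ∀ y ∈ Set.Ico 0 mu, ∃ z ∈ Z₀, ∃ r ∈ R, ∃ t ∈ R,
      ∀ x' ∈ Set.Ico 0 lam, (∀ b ∈ B, b ≤ x ↔ b ≤ x') →
      ∀ w' : ∀ i, W i, (∀ i, c i (w i) = c i (w' i)) →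
      ∀ y' ∈ Set.Ico 0 mu, (∀ b ∈ B, b ≤ y ↔ b ≤ y') →
        ρ s (x', w', y') = (x' + r, fun i => (T i ^ z i) (w' i), y' + t)

attribute [instance] Sys2.i1 Sys2.i2 Sys2.i3

/-- **The ultraproduct of systems has finite image.** -/
theorem ultra_two (G : Type) [Group G] [Group.IsFinitelyPresented G]
    (hG : ∀ x : G, IsOfFinOrder x) (S : Set G) (hS : Subgroup.closure S = ⊤)
    (k m : ℕ) (Z₀ : Set (Fin k → ℤ)) (hZ₀ : Z₀.Finite)
    {ι : Type} (D : ι → Sys2 G S k m Z₀) (U : Ultrafilter ι) :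
    Finite (act U (fun i => (D i).ρ)).range := by
  classical
  let K : ι → Type := fun i => (D i).𝕜
  let _ : ∀ i, Field (K i) := fun i => (D i).i1
  let _ : ∀ i, LinearOrder (K i) := fun i => (D i).i2
  have hso : ∀ i, IsStrictOrderedRing (K i) := fun i => (D i).i3
  let W : ι → Fin k → Type := fun i => (D i).W
  let T' : ∀ j, Equiv.Perm (UP U (fun i => W i j)) := fun j => powUP U fun i => (D i).T j
  let lam : ∀ i, K i := fun i => (D i).lam
  let mu : ∀ i, K i := fun i => (D i).mu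
  refine finite_of_cj (splitE U (V := K) (W := W) (K := K)) _ ?_
  set ρ' := (cj (splitE U (V := K) (W := W) (K := K))).comp (act U fun i => (D i).ρ) with hρ'
  have hmk : ∀ (g : G) (a : ∀ i, K i) (b : ∀ j, ∀ i, W i j) (c : ∀ i, K i),
      ρ' g (mk U a, fun j => mk U (b j), mk U c) =
        splitE U (mk U fun i => (D i).ρ g (a i, fun j => b j i, c i)) := by
    intro g a b c
    change splitE U (act U (fun i => (D i).ρ) g ((splitE U).symm _)) = _
    rw [splitE_symm, act_mk]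
  refine main_two nu G hG S hS k (fun j => UP U fun i => W i j) T'
    (mk U lam) (mk U mu) ρ' ?_ ?_
  · intro s hs x w y hxy
    obtain ⟨a, rfl⟩ := exists_mk U x
    choose b hb using fun j => exists_mk U (w j)
    obtain rfl : (fun j => mk U (b j)) = w := funext hb
    obtain ⟨c, rfl⟩ := exists_mk U y
    rw [hmk]
    have h2 : (mk U fun i => (D i).ρ s (a i, fun j => b j i, c i)) =
        mk U fun i => (a i, fun j => b j i, c i) := by
      rw [mk_eq]
      rcases hxy with h | h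
      · filter_upwards [not_mem_ico U a lam h] with i e1
        exact (D i).out s hs _ _ _ (Or.inl e1)
      · filter_upwards [not_mem_ico U c mu h] with i e1
        exact (D i).out s hs _ _ _ (Or.inr e1)
    rw [h2]
    rfl
  · intro s hs
    choose c B R hB hR hpw using fun i => (D i).pw s hs
    choose β hβ using fun i => exists_enum (0 : K i) (B i) (hB i)
    choose r hr using fun i => exists_enum (0 : K i) (R i) (hR i)
    refine ⟨m, fun j y => col U m (map1 U (fun i => c i j) y),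
      Finset.univ.image fun t => mk U fun i => β i t,
      (fun p : (Fin k → ℤ) × Fin (m + 1) × Fin (m + 1) =>
        (mk U fun i => r i p.2.1, p.1, mk U fun i => r i p.2.2)) ''
        (Z₀ ×ˢ Set.univ), (hZ₀.prod Set.finite_univ).image _, ?_⟩
    intro x hx w y hy
    obtain ⟨x, rfl⟩ := exists_mk U x
    choose b hb using fun j => exists_mk U (w j)
    obtain rfl : (fun j => mk U (b j)) = w := funext hb
    obtain ⟨y, rfl⟩ := exists_mk U y
    have hx' := (mem_ico U x lam).1 hx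
    have hy' := (mem_ico U y mu).1 hy
    have h1 : ∀ᶠ i in (U : Filter ι), ∃ z ∈ Z₀, ∃ t : Fin (m + 1) × Fin (m + 1),
        ∀ x' ∈ Set.Ico 0 (lam i), (∀ b ∈ B i, b ≤ x i ↔ b ≤ x') →
        ∀ w' : ∀ j, W i j, (∀ j, c i j (b j i) = c i j (w' j)) →
        ∀ y' ∈ Set.Ico 0 (mu i), (∀ b ∈ B i, b ≤ y i ↔ b ≤ y') →
          (D i).ρ s (x', w', y') = (x' + r i t.1, fun j => ((D i).T j ^ z j) (w' j),
            y' + r i t.2) := by
      filter_upwards [hx', hy'] with i e1 e2
      obtain ⟨z, hz, t₁, ht₁, t₂, ht₂, h2⟩ := hpw i (x i) e1 (fun j => b j i) (y i) e2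
      obtain ⟨t₁', ht₁'⟩ := hr i t₁ ht₁
      obtain ⟨t₂', ht₂'⟩ := hr i t₂ ht₂
      refine ⟨z, hz, (t₁', t₂'), ?_⟩
      rw [ht₁', ht₂']
      exact h2
    rw [Ultrafilter.eventually_exists_mem_iff hZ₀] at h1
    obtain ⟨z, hz, h1⟩ := h1
    rw [Ultrafilter.eventually_exists_iff] at h1
    obtain ⟨t, h1⟩ := h1
    refine ⟨_, ⟨(z, t), ⟨hz, trivial⟩, rfl⟩, ?_⟩
    intro x' hx'' hband w' hw' y' hy'' hband'
    obtain ⟨x', rfl⟩ := exists_mk U x'
    choose b' hb' using fun j => exists_mk U (w' j)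
    obtain rfl : (fun j => mk U (b' j)) = w' := funext hb'
    obtain ⟨y', rfl⟩ := exists_mk U y'
    have h3 : ∀ᶠ i in (U : Filter ι), ∀ j, c i j (b j i) = c i j (b' j i) := by
      rw [eventually_all]
      intro j
      exact (mk_eq U).1 (col_inj U (hw' j))
    have h4 := (mem_ico U x' lam).1 hx''
    have h4' := (mem_ico U y' mu).1 hy''
    have h5 : ∀ᶠ i in (U : Filter ι), ∀ t, β i t ≤ x i ↔ β i t ≤ x' i :=
      band_ev U β x x' fun t => hband _ (Finset.mem_image_of_mem _ (Finset.mem_univ t))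
    have h5' : ∀ᶠ i in (U : Filter ι), ∀ t, β i t ≤ y i ↔ β i t ≤ y' i :=
      band_ev U β y y' fun t => hband' _ (Finset.mem_image_of_mem _ (Finset.mem_univ t))
    rw [hmk]
    have h6 : (mk U fun i => (D i).ρ s (x' i, fun j => b' j i, y' i)) =
        mk U fun i => (x' i + r i t.1, fun j => ((D i).T j ^ z j) (b' j i), y' i + r i t.2) := by
      rw [mk_eq]
      filter_upwards [h1, h3, h4, h5, h4', h5'] with i e1 e3 e4 e5 e4' e5'
      refine e1 _ e4 ?_ _ e3 _ e4' ?_
      · intro b hb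
        obtain ⟨t, rfl⟩ := hβ i b hb
        exact e5 t
      · intro b hb
        obtain ⟨t, rfl⟩ := hβ i b hb
        exact e5' t
    rw [h6, splitE_mk]
    refine Prod.ext rfl (Prod.ext ?_ rfl)
    funext j
    exact (powUP_zpow U (fun i => (D i).T j) (z j) (b' j)).symm

/-- **Two intervals, counters: the uniform theorem.** -/
theorem unif_two (G : Type) [Group G] [Group.IsFinitelyPresented G]
    (hG : ∀ x : G, IsOfFinOrder x) (S : Set G) (hS : Subgroup.closure S = ⊤)
    (k m : ℕ) (Z₀ : Set (Fin k → ℤ)) (hZ₀ : Z₀.Finite) :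
    ∃ N : Subgroup G, N.Normal ∧ N.FiniteIndex ∧ ∀ D : Sys2 G S k m Z₀, ∀ g ∈ N, D.ρ g = 1 := by
  by_contra hcon
  push Not at hcon
  have h1 : ∀ N : Idx G, ∃ D : Sys2 G S k m Z₀, ∃ g ∈ N.1, D.ρ g ≠ 1 :=
    fun N => hcon N.1 N.2.1 N.2.2
  choose D g hg hne using h1
  have hfg : Group.FG G := by
    obtain ⟨n, φ, hφ, -⟩ := (inferInstance : Group.IsFinitelyPresented G)
    exact Group.fg_of_surjective hφ
  exact scheme hfg _ (fun i => (D i).ρ) g hg hne
    (fun U => ultra_two G hG S hS k m Z₀ hZ₀ D U)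

/-- **Rectangle exchanges: the uniform theorem.** -/
theorem unif_rec (G : Type) [Group G] [Group.IsFinitelyPresented G]
    (hG : ∀ x : G, IsOfFinOrder x) (S : Set G) (hS : Subgroup.closure S = ⊤) (m : ℕ) :
    ∃ N : Subgroup G, N.Normal ∧ N.FiniteIndex ∧
      ∀ (𝕜 : Type) [Field 𝕜] [LinearOrder 𝕜] [IsStrictOrderedRing 𝕜] (lam mu : 𝕜)
        (ρ : G →* Equiv.Perm (𝕜 × 𝕜)),
        (∀ s ∈ S, (∀ z, z ∉ Set.Ico 0 lam ×ˢ Set.Ico 0 mu → ρ s z = z) ∧
          ∃ B : Finset 𝕜, B.card ≤ m ∧ ∀ z ∈ Set.Ico 0 lam ×ˢ Set.Ico 0 mu,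
            ∀ z' ∈ Set.Ico 0 lam ×ˢ Set.Ico 0 mu, (∀ b ∈ B, b ≤ z.1 ↔ b ≤ z'.1) →
              (∀ b ∈ B, b ≤ z.2 ↔ b ≤ z'.2) → ρ s z' - z' = ρ s z - z) →
        ∀ g ∈ N, ρ g = 1 := by
  classical
  let m' : ℕ := 2 * (2 ^ m * 2 ^ m) + m
  obtain ⟨N, hN1, hN2, hN⟩ := unif_two G hG S hS 0 m' (Set.univ : Set (Fin 0 → ℤ))
    Set.finite_univ
  refine ⟨N, hN1, hN2, ?_⟩
  intro 𝕜 _ _ _ lam mu ρ hρ g hg
  let W : Fin 0 → Type := fun _ => PUnit
  let T : ∀ i, Equiv.Perm (W i) := fun _ => 1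
  let E : (𝕜 × 𝕜) ≃ (𝕜 × (∀ i, W i) × 𝕜) :=
    { toFun := fun z => (z.1, fun _ => PUnit.unit, z.2)
      invFun := fun z => (z.1, z.2.2)
      left_inv := fun z => rfl
      right_inv := fun z => rfl }
  have hm' : 0 < m' := by
    have : 0 < 2 ^ m * 2 ^ m := by positivity
    omega
  let D : Sys2 G S 0 m' (Set.univ : Set (Fin 0 → ℤ)) :=
    { 𝕜 := 𝕜
      W := W
      T := T
      lam := lam
      mu := mu
      ρ := (cj E).comp ρ
      out := by
        intro s hs x w y h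
        change E (ρ s (x, y)) = _
        rw [(hρ s hs).1 (x, y) (fun h2 => by
          rcases h with h | h
          · exact h h2.1
          · exact h h2.2)]
        rfl
      pw := by
        intro s hs
        obtain ⟨-, B, hBm, hB⟩ := hρ s hs
        let D : Set (𝕜 × 𝕜) := Set.Ico 0 lam ×ˢ Set.Ico 0 mu
        let Q : Type := (B → Prop) × (B → Prop)
        let τ : 𝕜 × 𝕜 → Q := fun z => (fun b => b.1 ≤ z.1, fun b => b.1 ≤ z.2)
        have hτ : ∀ z z', τ z = τ z' →
            (∀ b ∈ B, b ≤ z.1 ↔ b ≤ z'.1) ∧ ∀ b ∈ B, b ≤ z.2 ↔ b ≤ z'.2 := by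
          intro z z' h
          constructor
          · intro b hb
            exact iff_of_eq (congrFun (congrArg Prod.fst h) ⟨b, hb⟩)
          · intro b hb
            exact iff_of_eq (congrFun (congrArg Prod.snd h) ⟨b, hb⟩)
        let v : Q → 𝕜 × 𝕜 := fun i =>
          if h : ∃ z ∈ D, τ z = i then ρ s h.choose - h.choose else 0
        let _ : Fintype Q := Fintype.ofFinite Q
        let R : Finset 𝕜 := (Finset.univ.image fun i => (v i).1) ∪ Finset.univ.image fun i => (v i).2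
        have hcard : Fintype.card Q ≤ 2 ^ m * 2 ^ m := by
          have h1 : Fintype.card Q = 2 ^ B.card * 2 ^ B.card := by
            have h2 : Nat.card Q = 2 ^ B.card * 2 ^ B.card := by
              change Nat.card ((B → Prop) × (B → Prop)) = _
              rw [Nat.card_prod, Nat.card_fun]
              simp
            rw [← h2, Nat.card_eq_fintype_card]
          rw [h1]
          exact Nat.mul_le_mul (Nat.pow_le_pow_right (by norm_num) hBm)
            (Nat.pow_le_pow_right (by norm_num) hBm)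
        have hR : R.card ≤ m' := by
          have h1 : R.card ≤ Fintype.card Q + Fintype.card Q :=
            (Finset.card_union_le _ _).trans (add_le_add Finset.card_image_le Finset.card_image_le)
          omega
        refine ⟨fun _ _ => ⟨0, hm'⟩, B, R, by omega, hR, ?_⟩
        intro x hx w y hy
        have h2 : ∃ z' ∈ D, τ z' = τ (x, y) := ⟨(x, y), ⟨hx, hy⟩, rfl⟩
        have hv : v (τ (x, y)) = ρ s (x, y) - (x, y) := by
          change dite _ _ _ = _
          rw [dif_pos h2]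
          obtain ⟨h3, h4⟩ := h2.choose_spec
          obtain ⟨h5, h6⟩ := hτ _ _ h4.symm
          exact hB (x, y) ⟨hx, hy⟩ _ h3 h5 h6
        refine ⟨0, trivial, (v (τ (x, y))).1, Finset.mem_union_left _
          (Finset.mem_image_of_mem _ (Finset.mem_univ _)), (v (τ (x, y))).2,
          Finset.mem_union_right _ (Finset.mem_image_of_mem _ (Finset.mem_univ _)), ?_⟩
        intro x' hx' hxx w' _ y' hy' hyy
        have h1 := hB (x, y) ⟨hx, hy⟩ (x', y') ⟨hx', hy'⟩ hxx hyy
        change E (ρ s (x', y')) = _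
        have h2 : ρ s (x', y') = (x', y') + v (τ (x, y)) := by
          rw [hv, ← h1]
          abel
        rw [h2]
        refine Prod.ext rfl (Prod.ext ?_ rfl)
        funext i
        exact i.elim0 }
  have h1 : (cj E) (ρ g) = 1 := hN D g hg
  apply Equiv.ext
  intro z
  have h2 : cj E (ρ g) (E z) = E z := by rw [h1]; rfl
  rw [cj_apply, E.symm_apply_apply] at h2
  exact E.injective h2

end Vale.Agent.P192.H794.F
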