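import Vale.Agent.P192.H794.F.G6
import Vale.Agent.P192.H176.Wrd

/-!
# P192: infinite words, counters, piecewise isometries of an ordered field: the uniform theorem
-/

namespace Vale.Agent.P192.H794.F

open Vale.Agent.P192.H479 (CellK gen_induct)
open Vale.Agent.P192.H567
open Vale.Agent.P192.H176 (tailSetoid cp)

section loc

variable {X Y : Type} {Ω : Set (ℕ → X)}

/-- near every point `f` replaces the first letters of the word -/
def Loc (f : Ω × Y → Ω × Y) : Prop := ∀ z : Ω × Y, ∃ n a : ℕ, ∀ ω' : Ω,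
  (∀ i < n, ω'.1 i = z.1.1 i) → (f (ω', z.2)).2 = (f z).2 ∧
    (∀ i < a, (f (ω', z.2)).1.1 i = (f z).1.1 i) ∧ ∀ i, (f (ω', z.2)).1.1 (a + i) = ω'.1 (n + i)

theorem loc_add {f : Ω × Y → Ω × Y} {z : Ω × Y} {n a : ℕ} (h : ∀ ω' : Ω,
    (∀ i < n, ω'.1 i = z.1.1 i) → (f (ω', z.2)).2 = (f z).2 ∧
      (∀ i < a, (f (ω', z.2)).1.1 i = (f z).1.1 i) ∧
      ∀ i, (f (ω', z.2)).1.1 (a + i) = ω'.1 (n + i)) (j : ℕ) (ω' : Ω)
    (hω : ∀ i < n + j, ω'.1 i = z.1.1 i) : (f (ω', z.2)).2 = (f z).2 ∧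
      (∀ i < a + j, (f (ω', z.2)).1.1 i = (f z).1.1 i) ∧
      ∀ i, (f (ω', z.2)).1.1 (a + j + i) = ω'.1 (n + j + i) := by
  obtain ⟨h1, h2, h3⟩ := h ω' fun i hi => hω i (by omega)
  obtain ⟨-, -, h4⟩ := h z.1 fun i _ => rfl
  refine ⟨h1, fun i hi => ?_, fun i => ?_⟩
  · by_cases hi' : i < a
    · exact h2 i hi'
    · obtain ⟨d, rfl⟩ := Nat.exists_eq_add_of_le (not_lt.1 hi')
      rw [h3 d, hω (n + d) (by omega)]
      exact (h4 d).symm
  · rw [Nat.add_assoc, Nat.add_assoc, h3]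

theorem Loc.comp {f g : Ω × Y → Ω × Y} (hf : Loc f) (hg : Loc g) : Loc fun z => f (g z) := by
  intro z
  obtain ⟨n, a, h1⟩ := hg z
  obtain ⟨n', a', h2⟩ := hf (g z)
  refine ⟨n + n', a' + a, fun ω' hω => ?_⟩
  obtain ⟨e1, e2, e3⟩ := loc_add h1 n' ω' hω
  obtain ⟨e4, e5, e6⟩ := loc_add h2 a (g (ω', z.2)).1 (fun i hi => e2 i (by omega))
  have e7 : ((g (ω', z.2)).1, (g z).2) = g (ω', z.2) := Prod.ext rfl e1.symm
  rw [e7] at e4 e5 e6
  refine ⟨e4, e5, fun i => ?_⟩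
  rw [e6 i, Nat.add_comm n' a]
  exact e3 i

theorem loc_all {G : Type} [Group G] (hG : ∀ x : G, IsOfFinOrder x) (S : Set G)
    (hS : Subgroup.closure S = ⊤) (ρ : G →* Equiv.Perm (Ω × Y)) (h : ∀ s ∈ S, Loc (ρ s)) :
    ∀ g, Loc (ρ g) := by
  have h1 : Loc (ρ 1) := by
    intro z
    rw [map_one]
    exact ⟨0, 0, fun ω' _ => ⟨rfl, fun i hi => absurd hi (Nat.not_lt_zero i), fun i => rfl⟩⟩
  have h2 : ∀ a b, Loc (ρ a) → Loc (ρ b) → Loc (ρ (a * b)) := by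
    intro a b ha hb
    rw [map_mul]
    exact ha.comp hb
  refine gen_induct hS h h1 h2 ?_
  intro a ha
  obtain ⟨n, hn, h3⟩ := isOfFinOrder_iff_pow_eq_one.1 (hG a)
  have h4 : a⁻¹ = a ^ (n - 1) := by
    rw [inv_eq_iff_mul_eq_one, mul_pow_sub_one hn.ne', h3]
  rw [h4]
  generalize n - 1 = j
  induction j with
  | zero => rwa [pow_zero]
  | succ j ih => rw [pow_succ]; exact h2 _ _ ih ha

end loc

theorem aper_tail {X : Type} {ξ ξ' : ℕ → X} (h : Aper ξ) {a b : ℕ}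
    (ht : ∀ i, ξ' (a + i) = ξ (b + i)) : Aper ξ' := by
  intro c d hcd
  have h1 := h (b + c) (b + d) (fun i => by
    have h2 := hcd (a + i)
    rw [show c + (a + i) = a + (c + i) by omega, show d + (a + i) = a + (d + i) by omega,
      ht, ht] at h2
    rw [Nat.add_assoc, Nat.add_assoc]
    exact h2)
  omega

/-- **Infinite words, counters, piecewise isometries of a line: the uniform theorem.** -/
theorem unif_words (G : Type) [Group G] [Group.IsFinitelyPresented G]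
    (hG : ∀ x : G, IsOfFinOrder x) (S : Set G) (hS : Subgroup.closure S = ⊤)
    (X : Type) [Finite X] (k m : ℕ) (Z₀ : Set (Fin k → ℤ)) (hZ₀ : Z₀.Finite) :
    ∃ N : Subgroup G, N.Normal ∧ N.FiniteIndex ∧
      ∀ (𝕜 : Type) [Field 𝕜] [LinearOrder 𝕜] [IsStrictOrderedRing 𝕜] (Ω : Set (ℕ → X)),
        (∀ ξ ∈ Ω, ∀ n, ∃ ξ' ∈ Ω, Aper ξ' ∧ ∀ i < n, ξ' i = ξ i) →
        ∀ (W : Fin k → Type) (T : ∀ i, Equiv.Perm (W i))
          (ρ : G →* Equiv.Perm (Ω × (∀ i, W i) × 𝕜)),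
          (∀ s ∈ S, ∃ (c : ∀ i, W i → Fin m) (B R : Finset 𝕜), B.card ≤ m ∧ R.card ≤ m ∧
            ∀ z : Ω × (∀ i, W i) × 𝕜, ∃ p : List X, p.length ≤ m ∧ ∃ q ∈ Z₀, ∃ t ∈ R,
              ∃ e : 𝕜, |e| = 1 ∧ ∀ z' : Ω × (∀ i, W i) × 𝕜, pre m z.1.1 = pre m z'.1.1 →
                (∀ i, c i (z.2.1 i) = c i (z'.2.1 i)) → CellK B z.2.2 z'.2.2 →
                  ((ρ s z').1 : ℕ → X) = rep p m z'.1 ∧
                    (ρ s z').2 = (fun i => (T i ^ q i) (z'.2.1 i), e * z'.2.2 + t)) →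
          ∀ g ∈ N, ρ g = 1 := by
  classical
  let K₀ : Set (FreeGroup X × (Fin k → ℤ)) := insert (1, 0)
    ((fun a : (List X × List X) × (Fin k → ℤ) => (pw a.1.1 * (pw a.1.2)⁻¹, a.2)) ''
      (({l | l.length ≤ m} ×ˢ {l | l.length ≤ m}) ×ˢ Z₀))
  have hK₀ : K₀.Finite :=
    ((((List.finite_length_le X m).prod (List.finite_length_le X m)).prod hZ₀).image _).insert _
  obtain ⟨N, h1, h2, h3⟩ := unif_line G hG S hS (FreeGroup X) (fun E hE => ad_free_fin X E hE) k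
    (m + 1) K₀ hK₀
  refine ⟨N, h1, h2, ?_⟩
  intro 𝕜 _ _ _ Ω hd W T ρ hρ
  have hloc : ∀ g, Loc (ρ g) := loc_all hG S hS ρ (by
    intro s hs z
    obtain ⟨c, B, R, -, -, h⟩ := hρ s hs
    obtain ⟨p, -, q, -, t, -, e, -, h⟩ := h z
    refine ⟨m, p.length, fun ω' hω => ?_⟩
    have e1 := h (ω', z.2) (pre_congr hω).symm (fun _ => rfl) (fun _ _ => ⟨Iff.rfl, Iff.rfl⟩)
    have e2 := h z rfl (fun _ => rfl) (fun _ _ => ⟨Iff.rfl, Iff.rfl⟩)
    refine ⟨e1.2.trans e2.2.symm, fun i hi => ?_, fun i => ?_⟩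
    · rw [e1.1, e2.1, rep_lt hi, rep_lt hi]
    · rw [e1.1, rep_ge])
  -- the aperiodic words
  let Ωa : Type := {ω : Ω // Aper ω.1}
  let _ : MulAction G (Ω × (∀ i, W i) × 𝕜) := MulAction.compHom _ ρ
  let ι : Ωa × (∀ i, W i) × 𝕜 → Ω × (∀ i, W i) × 𝕜 := fun z => (z.1.1, z.2)
  have hι : Function.Injective ι := by
    rintro ⟨ω, z⟩ ⟨ω', z'⟩ h
    have e1 : ω = ω' := Subtype.ext (congrArg Prod.fst h)
    have e2 : z = z' := congrArg Prod.snd h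
    rw [e1, e2]
  have hinv : ∀ (g : G) (y : Ωa × (∀ i, W i) × 𝕜), ∃ y', ι y' = g • ι y := by
    rintro g ⟨⟨ω, hω⟩, w, x⟩
    have h1 : Aper (ρ g (ω, w, x)).1.1 := by
      obtain ⟨n, a, h⟩ := hloc g (ω, w, x)
      exact aper_tail hω (h ω (fun _ _ => rfl)).2.2
    exact ⟨(⟨(ρ g (ω, w, x)).1, h1⟩, (ρ g (ω, w, x)).2), rfl⟩
  obtain ⟨inst, hinst⟩ := exists_restrict ι hι hinv
  let Φ₀ : G →* Equiv.Perm (Ωa × (∀ i, W i) × 𝕜) := MulAction.toPermHom G _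
  have hΦ₀ : ∀ g z, ι (Φ₀ g z) = ρ g (ι z) := fun g z => hinst g z
  have hΦ1 : ∀ g z, (Φ₀ g z).1.1 = (ρ g (z.1.1, z.2)).1 := fun g z => congrArg Prod.fst (hΦ₀ g z)
  have hΦ2 : ∀ g z, (Φ₀ g z).2 = (ρ g (z.1.1, z.2)).2 := fun g z => congrArg Prod.snd (hΦ₀ g z)
  let S' := tailSetoid (fun ω : Ωa => ω.1.1)
  let U : Type := Quotient S' × FreeGroup X
  let _ : MulAction (FreeGroup X) U := cp (Quotient S') X
  let rp : Ωa → Ωa := fun ω => (Quotient.mk S' ω).out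
  have hrp : ∀ ω : Ωa, ∃ a b, Tail ω.1.1 (rp ω).1.1 a b := by
    intro ω
    obtain ⟨a, b, h⟩ := Quotient.mk_out (s := S') ω
    exact ⟨b, a, fun i => (h i).symm⟩
  let j₀ : Ωa → U := fun ω => (Quotient.mk S' ω, kap (rp ω).1.1 ω.1.1)
  have hj₀ : Function.Injective j₀ := by
    intro ω ω' h
    have e1 : Quotient.mk S' ω = Quotient.mk S' ω' := congrArg Prod.fst h
    have e2 : kap (rp ω).1.1 ω.1.1 = kap (rp ω').1.1 ω'.1.1 := congrArg Prod.snd h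
    have e3 : rp ω = rp ω' := by
      change (Quotient.mk S' ω).out = (Quotient.mk S' ω').out
      rw [e1]
    obtain ⟨a, b, h1⟩ := hrp ω
    obtain ⟨a', b', h2⟩ := hrp ω'
    rw [← e3] at e2 h2
    exact Subtype.ext (Subtype.ext (kap_inj (rp ω).2 h1 h2 e2))
  let j : Ωa × (∀ i, W i) × 𝕜 → U × (∀ i, W i) × 𝕜 := fun z => (j₀ z.1, z.2)
  have hj : Function.Injective j := by
    rintro ⟨ω, z⟩ ⟨ω', z'⟩ h
    have e2 : j₀ ω = j₀ ω' := congrArg Prod.fst h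
    have e3 : z = z' := congrArg Prod.snd h
    rw [hj₀ e2, e3]
  let f := Equiv.ofInjective j hj
  let Φ : G →* Equiv.Perm (U × (∀ i, W i) × 𝕜) := (Equiv.Perm.extendDomainHom f).comp Φ₀
  have hin : ∀ g z, Φ g (j z) = j (Φ₀ g z) := by
    intro g z
    exact Equiv.Perm.extendDomain_apply_image (Φ₀ g) f z
  have hout : ∀ g y, y ∉ Set.range j → Φ g y = y := by
    intro g y hy
    exact Equiv.Perm.extendDomain_apply_not_subtype (Φ₀ g) f hy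
  have hN : ∀ g ∈ N, Φ g = 1 := h3 𝕜 U (by
      intro l u h
      have h1 : l * u.2 = u.2 := congrArg Prod.snd h
      exact mul_eq_right.1 h1) W T Φ (by
    intro s hs
    obtain ⟨c, B, R, hB, hR, h⟩ := hρ s hs
    refine ⟨fun i w => (c i w).castSucc, B, insert 0 R, by omega,
      (Finset.card_insert_le _ _).trans (by omega), fun u w x => ?_⟩
    by_cases hu : u ∈ Set.range j₀
    · obtain ⟨ω, rfl⟩ := hu
      obtain ⟨p, hp, q, hq, t, ht, e, he, h4⟩ := h (ω.1, w, x)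
      refine ⟨(pw p * (pw (pre m ω.1.1))⁻¹, q), Or.inr ⟨((p, pre m ω.1.1), q),
        ⟨⟨hp, (pre_length m _).le⟩, hq⟩, rfl⟩, t, Finset.mem_insert_of_mem ht, e, he,
        fun w' hw x' hx => ?_⟩
      have h5 := h4 (ω.1, w', x') rfl (fun i => Fin.castSucc_injective _ (hw i)) hx
      change Φ s (j (ω, w', x')) = _
      rw [hin]
      have e2 : (Φ₀ s (ω, w', x')).1.1.1 = rep p m ω.1.1 := by
        rw [hΦ1]
        exact h5.1
      obtain ⟨a, b, h6⟩ := hrp ω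
      have e3 : Quotient.mk S' (Φ₀ s (ω, w', x')).1 = Quotient.mk S' ω := by
        apply Quotient.sound
        change ∃ a b, Tail (Φ₀ s (ω, w', x')).1.1.1 ω.1.1 a b
        rw [e2]
        exact ⟨p.length, m, fun i => rep_ge p m ω.1.1 i⟩
      have e4 : rp (Φ₀ s (ω, w', x')).1 = rp ω := by
        change (Quotient.mk S' (Φ₀ s (ω, w', x')).1).out = (Quotient.mk S' ω).out
        rw [e3]
      refine Prod.ext (Prod.ext e3 ?_) ((hΦ2 s _).trans h5.2)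
      change kap (rp (Φ₀ s (ω, w', x')).1).1.1 (Φ₀ s (ω, w', x')).1.1.1 =
        pw p * (pw (pre m ω.1.1))⁻¹ * kap (rp ω).1.1 ω.1.1
      rw [e4, e2, kap_rep (rp ω).2 h6]
    · refine ⟨(1, 0), Or.inl rfl, 0, Finset.mem_insert_self _ _, 1, abs_one, fun w' _ x' _ => ?_⟩
      rw [hout s (u, w', x') ?_]
      · refine Prod.ext (one_smul _ u).symm (Prod.ext ?_ ?_)
        · funext i
          change w' i = (T i ^ (0 : ℤ)) (w' i)
          rw [zpow_zero]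
          rfl
        · change x' = 1 * x' + 0
          rw [one_mul, add_zero]
      · rintro ⟨⟨ω, w₁, x₁⟩, e⟩
        exact hu ⟨ω, congrArg Prod.fst e⟩)
  intro g hg
  have h4 : ∀ z, Φ₀ g z = z := fun z => hj (by rw [← hin, hN g hg]; rfl)
  apply Equiv.ext
  rintro ⟨ω, w, x⟩
  obtain ⟨n, a, h5⟩ := hloc g (ω, w, x)
  obtain ⟨ξ', hξ, h6, h7⟩ := hd ω.1 ω.2 (n + a)
  have h8 : ρ g (⟨ξ', hξ⟩, w, x) = (⟨ξ', hξ⟩, w, x) := by
    have := hΦ₀ g (⟨⟨ξ', hξ⟩, h6⟩, w, x)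
    rw [h4] at this
    exact this.symm
  obtain ⟨e1, e2, e3⟩ := h5 ⟨ξ', hξ⟩ (fun i hi => h7 i (by omega))
  change (ρ g (⟨ξ', hξ⟩, w, x)).2 = _ at e1
  change ∀ i < a, (ρ g (⟨ξ', hξ⟩, w, x)).1.1 i = _ at e2
  change ∀ i, (ρ g (⟨ξ', hξ⟩, w, x)).1.1 (a + i) = _ at e3
  rw [h8] at e1 e2 e3
  have e4 : a = n := h6 a n e3
  subst e4
  obtain ⟨-, -, e5⟩ := h5 ω (fun _ _ => rfl)
  refine Prod.ext (Subtype.ext (funext fun i => ?_)) e1.symm
  by_cases hi : i < a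
  · exact (e2 i hi).symm.trans (h7 i (by omega))
  · obtain ⟨d, rfl⟩ := Nat.exists_eq_add_of_le (not_lt.1 hi)
    exact e5 d

end Vale.Agent.P192.H794.F
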