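import Vale.Agent.P192.H794.F.G3

/-!
# P192: asymptotic dimension at most one passes to ultraproducts
-/

namespace Vale.Agent.P192.H794.F

open Filter Vale.Agent.P192.PMUnif

/-- **Two-colourings with bounded monochromatic components pass to ultraproducts.** -/
theorem qc_up {ι : Type} (U : Ultrafilter ι) (L : Type) [Group L] (V : ι → Type)
    [∀ i, MulAction L (V i)] (E : Set L) (M : ℕ)
    (h : ∀ i, ∃ C : Set (V i), ∀ x : V i,
      {y | Relation.ReflTransGen (fun a b => (a ∈ C ↔ b ∈ C) ∧ ∃ e ∈ E, b = e • a) x y}.encard ≤ M) :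
    letI : MulAction L (UP U V) := smulUP U L
    ∃ C : Set (UP U V), ∀ x : UP U V,
      {y | Relation.ReflTransGen (fun a b => (a ∈ C ↔ b ∈ C) ∧ ∃ e ∈ E, b = e • a) x y}.encard ≤
        M := by
  classical
  let _ : MulAction L (UP U V) := smulUP U L
  choose C hC using h
  let C' : Set (UP U V) := {z | ∃ c : ∀ i, V i, mk U c = z ∧ ∀ᶠ i in (U : Filter ι), c i ∈ C i}
  have hC' : ∀ f : ∀ i, V i, mk U f ∈ C' ↔ ∀ᶠ i in (U : Filter ι), f i ∈ C i := by
    intro f
    constructor
    · rintro ⟨c, hc, h1⟩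
      filter_upwards [(mk_eq U).1 hc, h1] with i e1 e2
      rwa [← e1]
    · intro h1
      exact ⟨f, rfl, h1⟩
  have hsm : ∀ (l : L) (f : ∀ i, V i), l • mk U f = mk U fun i => l • f i := fun _ _ => rfl
  refine ⟨C', fun x => ?_⟩
  obtain ⟨f, rfl⟩ := exists_mk U x
  have hpath : ∀ y : UP U V,
      Relation.ReflTransGen (fun a b => (a ∈ C' ↔ b ∈ C') ∧ ∃ e ∈ E, b = e • a) (mk U f) y →
      ∀ g : ∀ i, V i, mk U g = y → ∀ᶠ i in (U : Filter ι), Relation.ReflTransGen
        (fun a b => (a ∈ C i ↔ b ∈ C i) ∧ ∃ e ∈ E, b = e • a) (f i) (g i) := by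
    intro y hy
    induction hy with
    | refl =>
      intro g hg
      filter_upwards [(mk_eq U).1 hg] with i e1
      rw [e1]
    | @tail y' y _ hstep ih =>
      intro g hg
      obtain ⟨g', rfl⟩ := exists_mk U y'
      obtain ⟨h1, e, he, h2⟩ := hstep
      rw [← hg, hC', hC'] at h1
      rw [← hg, hsm, mk_eq] at h2
      filter_upwards [ih g' rfl, ev_iff U h1, h2] with i e1 e2 e3
      exact e1.tail ⟨e2, e, he, e3⟩
  by_contra hcon
  rw [not_le] at hcon
  have h1 : (M : ℕ∞) + 1 ≤ Set.encard {y | Relation.ReflTransGen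
      (fun a b => (a ∈ C' ↔ b ∈ C') ∧ ∃ e ∈ E, b = e • a) (mk U f) y} :=
    Order.add_one_le_of_lt hcon
  obtain ⟨t, ht, hcard⟩ := Set.exists_subset_encard_eq h1
  have htf : t.Finite := by
    rw [← Set.encard_lt_top_iff, hcard]
    exact ENat.coe_lt_top (M + 1)
  choose r hr using fun y : UP U V => exists_mk U y
  have h2 : ∀ᶠ i in (U : Filter ι), ∀ y ∈ t, Relation.ReflTransGen
      (fun a b => (a ∈ C i ↔ b ∈ C i) ∧ ∃ e ∈ E, b = e • a) (f i) (r y i) := by
    rw [eventually_all_finite htf]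
    intro y hy
    exact hpath y (ht hy) (r y) (hr y)
  have h3 : ∀ᶠ i in (U : Filter ι), ∀ y ∈ t, ∀ y' ∈ t, r y i = r y' i → y = y' := by
    rw [eventually_all_finite htf]
    intro y _
    rw [eventually_all_finite htf]
    intro y' _
    by_cases hyy : y = y'
    · exact Eventually.of_forall fun i _ => hyy
    · have h4 : ¬ ∀ᶠ i in (U : Filter ι), r y i = r y' i := by
        intro h5
        apply hyy
        rw [← hr y, ← hr y']
        exact (mk_eq U).2 h5
      rw [← Ultrafilter.eventually_not] at h4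
      filter_upwards [h4] with i e1 e2
      exact absurd e2 e1
  obtain ⟨i, hi2, hi3⟩ := (h2.and h3).exists
  have h4 : ((fun y => r y i) '' t).encard = M + 1 := by
    rw [Set.InjOn.encard_image (fun y hy y' hy' h => hi3 y hy y' hy' h), hcard]
  have h5 : ((fun y => r y i) '' t).encard ≤ M := by
    refine (Set.encard_le_encard ?_).trans (hC i (f i))
    rintro _ ⟨y, hy, rfl⟩
    exact hi2 y hy
  rw [h4] at h5
  have h6 : ((M + 1 : ℕ) : ℕ∞) ≤ (M : ℕ∞) := by exact_mod_cast h5
  rw [Nat.cast_le] at h6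
  omega

end Vale.Agent.P192.H794.F
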